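import Vale.Agent.P092.RC.Mid
import Vale.Agent.P092.H333.Amp

/-!
P092, TEAM C, all amplifications (helper962): the picture with a finite family of vectors in the
place of the trace vector, and its amplification `K ⊗ ℂ^Q`, which has one vector.
-/

set_option linter.all false

open scoped InnerProductSpace ENNReal
open Filter Topology ContinuousLinearMap MeasureTheory TopologicalSpace

namespace Vale.Agent.P092.RC

open Vale.Agent.P092.SR (CO)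
open Vale.Agent.P092.H820 (Cpv)
open Vale.Agent.P092.H333.Amp

/-! ### The picture with a family of vectors -/

section defs

variable {G Γ K ι : Type} [Group G] [TopologicalSpace G] [Group Γ] [NormedAddCommGroup K]
  [InnerProductSpace ℂ K] [CompleteSpace K] [Fintype ι]

/-- `Tr (T* T)` for a family of vectors -/
noncomputable def TRNF (lam : Γ →* (K →L[ℂ] K)) (Ω : ι → K) (T : K →L[ℂ] K) : ℝ≥0∞ :=
  ∑ i, TRN lam (Ω i) T

/-- `RC.Pic` for a family of vectors -/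
structure PicF (π : G →* (K →L[ℂ] K)) (lam : Γ →* (K →L[ℂ] K)) (W : Set (K →L[ℂ] K))
    (Ω : ι → K) : Prop where
  adjP : ∀ g, adjoint (π g) = π g⁻¹
  contP : ∀ ξ, Continuous fun g => π g ξ
  adjL : ∀ γ, adjoint (lam γ) = lam γ⁻¹
  comm : ∀ g γ, π g * lam γ = lam γ * π g
  Wadj : ∀ w ∈ W, adjoint w ∈ W
  WP : ∀ w ∈ W, ∀ g, π g * w * π g⁻¹ ∈ W
  WL : ∀ w ∈ W, ∀ γ, w * lam γ = lam γ * w
  nΩ : ∑ i, ‖Ω i‖ ^ 2 = 1
  erg : ∀ S : Set G, Moore S → ∀ T, Cm W T → (∀ γ, T * lam γ = lam γ * T) →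
    (∀ g ∈ S, T * π g = π g * T) → ∃ z : ℂ, T = z • (1 : K →L[ℂ] K)
  tr_adj : ∀ T, Cm W T → TRNF lam Ω (adjoint T) = TRNF lam Ω T
  tr_conj : ∀ T, Cm W T → ∀ g, TRNF lam Ω (π g * T * π g⁻¹) = TRNF lam Ω T
  tr_zero : ∀ T, Cm W T → TRNF lam Ω T = 0 → T = 0
  hs_erg : ∀ S : Set G, Moore S → ∀ T, Cm W T → TRNF lam Ω T < ∞ →
    (∀ g ∈ S, T * π g = π g * T) → T = 0
  inv : ∃ (n : ℕ) (Ω' : Fin n → K), ∑ i, ‖Ω' i‖ ^ 2 = 1 ∧
    ∀ T, Cm W T → (∀ g, T * π g = π g * T) → ∀ γ,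
    ∑ i, ⟪Ω' i, (lam γ * T * lam γ⁻¹) (Ω' i)⟫_ℂ = ∑ i, ⟪Ω' i, T (Ω' i)⟫_ℂ

/-- `RC.Pic` with the existential form of the field `inv` -/
structure PicX (π : G →* (K →L[ℂ] K)) (lam : Γ →* (K →L[ℂ] K)) (W : Set (K →L[ℂ] K)) (Ω : K) :
    Prop where
  adjP : ∀ g, adjoint (π g) = π g⁻¹
  contP : ∀ ξ, Continuous fun g => π g ξ
  adjL : ∀ γ, adjoint (lam γ) = lam γ⁻¹
  comm : ∀ g γ, π g * lam γ = lam γ * π g
  Wadj : ∀ w ∈ W, adjoint w ∈ W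
  WP : ∀ w ∈ W, ∀ g, π g * w * π g⁻¹ ∈ W
  WL : ∀ w ∈ W, ∀ γ, w * lam γ = lam γ * w
  nΩ : ‖Ω‖ = 1
  erg : ∀ S : Set G, Moore S → ∀ T, Cm W T → (∀ γ, T * lam γ = lam γ * T) →
    (∀ g ∈ S, T * π g = π g * T) → ∃ z : ℂ, T = z • (1 : K →L[ℂ] K)
  tr_adj : ∀ T, Cm W T → TRN lam Ω (adjoint T) = TRN lam Ω T
  tr_conj : ∀ T, Cm W T → ∀ g, TRN lam Ω (π g * T * π g⁻¹) = TRN lam Ω T
  tr_zero : ∀ T, Cm W T → TRN lam Ω T = 0 → T = 0
  hs_erg : ∀ S : Set G, Moore S → ∀ T, Cm W T → TRN lam Ω T < ∞ →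
    (∀ g ∈ S, T * π g = π g * T) → T = 0
  inv : ∃ Ω' : K, ‖Ω'‖ = 1 ∧ ∀ T, Cm W T → (∀ g, T * π g = π g * T) → ∀ γ,
    ⟪Ω', (lam γ * T * lam γ⁻¹) Ω'⟫_ℂ = ⟪Ω', T Ω'⟫_ℂ

end defs

/-! ### Amplification -/

section amp

variable {Γ K ι Q : Type} [Group Γ] [NormedAddCommGroup K]
  [InnerProductSpace ℂ K] [CompleteSpace K] [Fintype ι] [Group Q] [Fintype Q]

/-- `π ⊗ 1` -/
noncomputable def ampH {D : Type} [Group D] (Q : Type) [Group Q] [Fintype Q]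
    (π : D →* (K →L[ℂ] K)) : D →* (KT Q K →L[ℂ] KT Q K) where
  toFun g := amp (π g)
  map_one' := by rw [map_one, amp_one]
  map_mul' g h := by rw [map_mul, amp_mul]

theorem ampH_ap {D : Type} [Group D] (π : D →* (K →L[ℂ] K)) (g : D) :
    ampH Q π g = amp (π g) := rfl

/-- `W ⊗ 1` and the matrices -/
def ampW (Q : Type) [Group Q] [Fintype Q] (W : Set (K →L[ℂ] K)) :
    Set (KT Q K →L[ℂ] KT Q K) := amp '' W ∪ Set.range sg

/-- the vector made of a family -/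
noncomputable def ampO (j : ι ↪ Q) (Ω : ι → K) : KT Q K := ∑ i, em (j i) (Ω i)

theorem ampO_ap (j : ι ↪ Q) (Ω : ι → K) (i : ι) : ampO j Ω (j i) = Ω i := by
  classical
  have h1 : ampO j Ω (j i) = ∑ l, (em (j l) (Ω l)) (j i) := by
    rw [ampO, ← co_apply, map_sum]; rfl
  rw [h1, Finset.sum_eq_single i]
  · exact em_same _ _
  · intro l _ hl
    exact em_ne (fun h => hl (j.injective h).symm) _
  · intro h; exact absurd (Finset.mem_univ i) h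

theorem ampO_ne (j : ι ↪ Q) (Ω : ι → K) {q : Q} (hq : ∀ i, j i ≠ q) : ampO j Ω q = 0 := by
  have h1 : ampO j Ω q = ∑ l, (em (j l) (Ω l)) q := by
    rw [ampO, ← co_apply, map_sum]; rfl
  rw [h1]
  exact Finset.sum_eq_zero fun l _ => em_ne (fun h => hq l h.symm) _

/-- a sum over the coordinates of the vector -/
theorem sum_ampO {M : Type} [AddCommMonoid M] (j : ι ↪ Q) (Ω : ι → K) (F : K → M)
    (hF : F 0 = 0) : ∑ q, F (ampO j Ω q) = ∑ i, F (Ω i) := by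
  classical
  have h1 : ∑ q, F (ampO j Ω q) = ∑ q ∈ Finset.univ.map j, F (ampO j Ω q) := by
    symm
    refine Finset.sum_subset (Finset.subset_univ _) fun q _ hq => ?_
    rw [ampO_ne j Ω fun i hi => hq ?_, hF]
    exact Finset.mem_map.2 ⟨i, Finset.mem_univ _, hi⟩
  rw [h1, Finset.sum_map]
  exact Finset.sum_congr rfl fun i _ => by rw [ampO_ap]

theorem enorm_sq_KT (v : KT Q K) : ‖v‖ₑ ^ 2 = ∑ j, ‖v j‖ₑ ^ 2 := by
  have h1 := norm_sq_KT v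
  have h2 : ∀ {E : Type} [NormedAddCommGroup E] (x : E), ‖x‖ₑ ^ 2 = ENNReal.ofReal (‖x‖ ^ 2) := by
    intro E _ x
    rw [← ofReal_norm_eq_enorm, ENNReal.ofReal_pow (norm_nonneg _)]
  rw [h2, h1, ENNReal.ofReal_sum_of_nonneg fun j _ => by positivity]
  exact Finset.sum_congr rfl fun j _ => (h2 _).symm

theorem trn_amp (lam : Γ →* (K →L[ℂ] K)) (j : ι ↪ Q) (Ω : ι → K) (T : K →L[ℂ] K) :
    TRN (ampH Q lam) (ampO j Ω) (amp T) = TRNF lam Ω T := by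
  have h1 : ∀ γ, ‖amp T (ampH Q lam γ (ampO j Ω))‖ₑ ^ 2 = ∑ i, ‖T (lam γ (Ω i))‖ₑ ^ 2 := by
    intro γ
    rw [enorm_sq_KT]
    exact sum_ampO j Ω (fun v => ‖T (lam γ v)‖ₑ ^ 2) (by simp)
  rw [TRN]
  simp only [h1]
  exact Summable.tsum_finsetSum fun _ _ => ENNReal.summable

theorem cm_ampW {W : Set (K →L[ℂ] K)} {T : KT Q K →L[ℂ] KT Q K} :
    Cm (ampW Q W) T ↔ ∃ T', T = amp T' ∧ Cm W T' := by
  constructor
  · intro h
    obtain ⟨T', rfl⟩ := comm_sg fun f => h (sg f) (Or.inr ⟨f, rfl⟩)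
    refine ⟨T', rfl, fun w hw => ?_⟩
    have h1 := h (amp w) (Or.inl ⟨w, hw, rfl⟩)
    rw [← amp_mul, ← amp_mul] at h1
    exact amp_inj h1
  · rintro ⟨T', rfl, h⟩ w (⟨w, hw, rfl⟩ | ⟨f, rfl⟩)
    · rw [← amp_mul, ← amp_mul, h w hw]
    · exact amp_sg T' f

theorem cm_amp {W : Set (K →L[ℂ] K)} {T : K →L[ℂ] K} (h : Cm W T) : Cm (ampW Q W) (amp T) :=
  cm_ampW.2 ⟨T, rfl, h⟩

theorem amp_comm_iff {S T : K →L[ℂ] K} :
    amp (Q := Q) S * amp T = amp T * amp S ↔ S * T = T * S := by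
  rw [← amp_mul, ← amp_mul]
  exact ⟨fun h => amp_inj h, fun h => by rw [h]⟩

theorem inner_ampO (j : ι ↪ Q) (Ω : ι → K) (T : K →L[ℂ] K) :
    ⟪ampO j Ω, amp T (ampO j Ω)⟫_ℂ = ∑ i, ⟪Ω i, T (Ω i)⟫_ℂ := by
  rw [inner_KT]
  exact sum_ampO j Ω (fun v => ⟪v, T v⟫_ℂ) (by simp)

theorem norm_ampO (j : ι ↪ Q) (Ω : ι → K) : ‖ampO j Ω‖ ^ 2 = ∑ i, ‖Ω i‖ ^ 2 := by
  rw [norm_sq_KT]
  exact sum_ampO j Ω (fun v => ‖v‖ ^ 2) (by simp)

variable {G : Type} [Group G] [TopologicalSpace G]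

theorem cont_amp {π : G →* (K →L[ℂ] K)} (h : ∀ ξ, Continuous fun g => π g ξ) (ξ : KT Q K) :
    Continuous fun g => amp (Q := Q) (π g) ξ := by
  have h1 : Continuous fun g => (fun j => π g (ξ j) : Q → K) := continuous_pi fun j => h (ξ j)
  exact (PiLp.continuousLinearEquiv 2 ℂ (fun _ : Q => K)).symm.continuous.comp h1

variable {π : G →* (K →L[ℂ] K)} {lam : Γ →* (K →L[ℂ] K)} {W : Set (K →L[ℂ] K)} {Ω : ι → K}

theorem norm_one_ampO {ι : Type} [Fintype ι] (j : ι ↪ Q) {Ω : ι → K} (h : ∑ i, ‖Ω i‖ ^ 2 = 1) :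
    ‖ampO j Ω‖ = 1 := by
  have h1 := norm_ampO j Ω
  rw [h] at h1
  have h2 := norm_nonneg (ampO j Ω)
  nlinarith [h1, h2]

/-- **The amplified picture has one vector.** -/
theorem PicF.amp (h : PicF π lam W Ω) (j : ι ↪ Q) {n : ℕ} (j' : Fin n ↪ Q) {Ω' : Fin n → K}
    (hn : ∑ i, ‖Ω' i‖ ^ 2 = 1) (hi : ∀ T, Cm W T → (∀ g, T * π g = π g * T) → ∀ γ,
      ∑ i, ⟪Ω' i, (lam γ * T * lam γ⁻¹) (Ω' i)⟫_ℂ = ∑ i, ⟪Ω' i, T (Ω' i)⟫_ℂ) :
    PicX (ampH Q π) (ampH Q lam) (ampW Q W) (ampO j Ω) where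
  adjP g := by rw [ampH_ap, adjoint_amp, h.adjP]; rfl
  contP ξ := cont_amp h.contP ξ
  adjL g := by rw [ampH_ap, adjoint_amp, h.adjL]; rfl
  comm g γ := amp_comm_iff.2 (h.comm g γ)
  Wadj := by
    rintro _ (⟨w, hw, rfl⟩ | ⟨f, rfl⟩)
    · rw [adjoint_amp]
      exact Or.inl ⟨_, h.Wadj w hw, rfl⟩
    · rw [adjoint_sg]
      exact Or.inr ⟨_, rfl⟩
  WP := by
    rintro _ (⟨w, hw, rfl⟩ | ⟨f, rfl⟩) g
    · rw [ampH_ap, ampH_ap, ← amp_mul, ← amp_mul]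
      exact Or.inl ⟨_, h.WP w hw g, rfl⟩
    · have h1 : π g * π g⁻¹ = 1 := by rw [← map_mul, mul_inv_cancel, map_one]
      rw [ampH_ap, ampH_ap, amp_sg, mul_assoc, ← amp_mul, h1, amp_one, mul_one]
      exact Or.inr ⟨_, rfl⟩
  WL := by
    rintro _ (⟨w, hw, rfl⟩ | ⟨f, rfl⟩) γ
    · exact amp_comm_iff.2 (h.WL w hw γ)
    · exact (amp_sg _ _).symm
  nΩ := norm_one_ampO j h.nΩ
  erg S hS T hT hl hp := by
    obtain ⟨T', rfl, hT'⟩ := cm_ampW.1 hT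
    obtain ⟨z, hz⟩ := h.erg S hS T' hT' (fun γ => amp_comm_iff.1 (hl γ))
      (fun g hg => amp_comm_iff.1 (hp g hg))
    exact ⟨z, by rw [hz, amp_smul, amp_one]⟩
  tr_adj T hT := by
    obtain ⟨T', rfl, hT'⟩ := cm_ampW.1 hT
    rw [adjoint_amp, trn_amp, trn_amp, h.tr_adj T' hT']
  tr_conj T hT g := by
    obtain ⟨T', rfl, hT'⟩ := cm_ampW.1 hT
    rw [ampH_ap, ampH_ap, ← amp_mul, ← amp_mul, trn_amp, trn_amp, h.tr_conj T' hT' g]
  tr_zero T hT h0 := by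
    obtain ⟨T', rfl, hT'⟩ := cm_ampW.1 hT
    rw [trn_amp] at h0
    rw [h.tr_zero T' hT' h0, amp_zero]
  hs_erg S hS T hT hf hp := by
    obtain ⟨T', rfl, hT'⟩ := cm_ampW.1 hT
    rw [trn_amp] at hf
    rw [h.hs_erg S hS T' hT' hf fun g hg => amp_comm_iff.1 (hp g hg), amp_zero]
  inv := by
    refine ⟨ampO j' Ω', norm_one_ampO j' hn, fun T hT hp γ => ?_⟩
    obtain ⟨T', rfl, hT'⟩ := cm_ampW.1 hT
    rw [ampH_ap, ampH_ap, ← amp_mul, ← amp_mul, inner_ampO, inner_ampO,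
      hi T' hT' (fun g => amp_comm_iff.1 (hp g)) γ]

theorem emb_of_card {n : ℕ} {Q : Type} [Fintype Q] (h : n ≤ Fintype.card Q) :
    Nonempty (Fin n ↪ Q) :=
  Function.Embedding.nonempty_of_card_le (by rw [Fintype.card_fin]; exact h)

/-- the same for all sufficiently large amplifications -/
theorem PicF.exists_amp (h : PicF π lam W Ω) : ∃ N : ℕ, ∀ (Q : Type) [Group Q] [Fintype Q],
    N ≤ Fintype.card Q → ∀ j : ι ↪ Q, PicX (ampH Q π) (ampH Q lam) (ampW Q W) (ampO j Ω) := by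
  obtain ⟨n, Ω', hn, hi⟩ := h.inv
  refine ⟨n, fun Q _ _ hQ j => ?_⟩
  obtain ⟨j'⟩ := emb_of_card hQ
  exact h.amp j j' hn hi

/-- amplification as a homomorphism of `*`-algebras -/
noncomputable def ampS (Q K : Type) [Group Q] [Fintype Q] [NormedAddCommGroup K]
    [InnerProductSpace ℂ K] [CompleteSpace K] : (K →L[ℂ] K) →⋆ₐ[ℂ] (KT Q K →L[ℂ] KT Q K) where
  toFun := amp
  map_one' := amp_one
  map_mul' := amp_mul
  map_zero' := amp_zero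
  map_add' := amp_add
  commutes' c := by
    rw [Algebra.algebraMap_eq_smul_one, Algebra.algebraMap_eq_smul_one, amp_smul, amp_one]
  map_star' T := (adjoint_amp T).symm

theorem ampS_ap (T : K →L[ℂ] K) : ampS Q K T = amp T := rfl

theorem amp_nonneg {T : K →L[ℂ] K} (h : 0 ≤ T) : 0 ≤ amp (Q := Q) T := by
  have h1 := map_nonneg (ampS Q K) h
  exact h1

theorem amp_le {S T : K →L[ℂ] K} (h : S ≤ T) : amp (Q := Q) S ≤ amp T := by
  have h1 := amp_nonneg (Q := Q) (sub_nonneg.2 h)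
  rw [amp_sub] at h1
  exact sub_nonneg.1 h1

theorem amp_sum {J : Type} (s : Finset J) (f : J → (K →L[ℂ] K)) :
    amp (Q := Q) (∑ j ∈ s, f j) = ∑ j ∈ s, amp (f j) := map_sum (ampS Q K) f s

theorem ampW_union {Y : Type} (X : Set (K →L[ℂ] K)) (L : Y → (K →L[ℂ] K)) :
    ampW Q (X ∪ Set.range L) = ampW Q X ∪ Set.range fun y => amp (Q := Q) (L y) := by
  ext T
  constructor
  · rintro (⟨w, (hw | ⟨y, rfl⟩), rfl⟩ | hf)
    · exact Or.inl (Or.inl ⟨w, hw, rfl⟩)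
    · exact Or.inr ⟨y, rfl⟩
    · exact Or.inl (Or.inr hf)
  · rintro ((⟨w, hw, rfl⟩ | hf) | ⟨y, rfl⟩)
    · exact Or.inl ⟨w, Or.inl hw, rfl⟩
    · exact Or.inr hf
    · exact Or.inl ⟨_, Or.inr ⟨y, rfl⟩, rfl⟩

end amp

/-! ### The output of the analysis -/

section out

variable {G Γ Y G₀ K ι Q : Type} [Group G] [TopologicalSpace G] [Group Γ] [TopologicalSpace Y]
  [MulAction G Y] [ContinuousConstSMul G Y] [Group G₀] [TopologicalSpace G₀]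
  [NormedAddCommGroup K] [InnerProductSpace ℂ K] [CompleteSpace K] [Fintype ι] [Group Q]
  [Fintype Q]

/-- `RC.Hat` for a family of vectors -/
structure HatF (π : G →* (K →L[ℂ] K)) (lam : Γ →* (K →L[ℂ] K)) (W : Set (K →L[ℂ] K)) (Ω : ι → K)
    (q : Γ →* G) (c : G → Y → G₀) (y₀ : Y) (E : Clopens Y → (K →L[ℂ] K)) (U : Subgroup G₀)
    (a : G₀ → (K →L[ℂ] K)) : Prop where
  cos : SR.COS U
  res : Res π lam W q c y₀ E U a
  pos : ∀ h, 0 ≤ a h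
  ne : a ≠ 0
  sum : ∀ F : Finset G₀, (∀ h ∈ F, ∀ h' ∈ F, h ≠ h' → h⁻¹ * h' ∉ U) → ∑ h ∈ F, a h ≤ 1
  smooth : ∃ V : Subgroup G, IsOpen (V : Set G) ∧ ∀ p ∈ V, p • y₀ = y₀ →
    ∀ h, π p * a h = a h * π p
  tb : ∀ g : G, g • y₀ ≠ y₀ → ∀ C C' : Clopens Y, Disjoint C C' → ∀ h h' : G₀,
    TRNF lam Ω (π g * (a h' * E C') * π g⁻¹ * (a h * E C)) < ∞

variable {π : G →* (K →L[ℂ] K)} {lam : Γ →* (K →L[ℂ] K)} {W : Set (K →L[ℂ] K)} {Ω : ι → K}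
  {q : Γ →* G} {c : G → Y → G₀} {y₀ : Y} {E : Clopens Y → (K →L[ℂ] K)} {U : Subgroup G₀}
  {a : G₀ → (K →L[ℂ] K)}

theorem Lim.amp (h : Lim π lam W q y₀ E) :
    Lim (ampH Q π) (ampH Q lam) (ampW Q W) q y₀ fun C => amp (Q := Q) (E C) where
  cpv :=
    { sa := fun C => by
        have h1 := h.cpv.sa C
        rw [star_eq_adjoint] at h1 ⊢
        rw [adjoint_amp, h1]
      inf := fun C D => by rw [h.cpv.inf, amp_mul]
      compl := fun C => by rw [h.cpv.compl, amp_sub, amp_one] }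
  cm C := cm_amp (h.cm C)
  cov γ C := by rw [ampH_ap, ampH_ap, ← amp_mul, ← amp_mul, h.cov]
  par p hp C := by rw [ampH_ap, ← amp_mul, ← amp_mul, h.par p hp]

theorem Res.amp (h : Res π lam W q c y₀ E U a) :
    Res (ampH Q π) (ampH Q lam) (ampW Q W) q c y₀ (fun C => amp (Q := Q) (E C)) U
      fun g => amp (Q := Q) (a g) where
  bdd := by
    obtain ⟨B, hB⟩ := h.bdd
    exact ⟨B, fun g => by rw [norm_amp]; exact hB g⟩
  rinv g v hv := by rw [h.rinv g v hv]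
  cm g := cm_amp (h.cm g)
  rad r h1 h2 g := by rw [ampH_ap, ← amp_mul, ← amp_mul, h.rad r h1 h2]
  cE g C := by rw [← amp_mul, ← amp_mul, h.cE]
  eqv γ g g' C hC := by
    rw [ampH_ap, ampH_ap, ← amp_mul, ← amp_mul, ← amp_mul, ← amp_mul, h.eqv γ g g' C hC]

theorem HatF.amp (h : HatF π lam W Ω q c y₀ E U a) (j : ι ↪ Q) :
    Hat (ampH Q π) (ampH Q lam) (ampW Q W) (ampO j Ω) q c y₀ (fun C => amp (Q := Q) (E C)) U
      fun g => amp (Q := Q) (a g) where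
  cos := h.cos
  res := h.res.amp
  pos g := amp_nonneg (h.pos g)
  ne he := h.ne (funext fun g => by
    have h1 := congrFun he g
    change H333.Amp.amp (a g) = 0 at h1
    rw [← amp_zero] at h1
    exact amp_inj h1)
  sum F hF := by
    have h1 := amp_le (Q := Q) (h.sum F hF)
    rwa [amp_sum, amp_one] at h1
  smooth := by
    obtain ⟨V, hV, h1⟩ := h.smooth
    exact ⟨V, hV, fun p hp hy g => by rw [ampH_ap, ← amp_mul, ← amp_mul, h1 p hp hy]⟩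
  tb g hg C C' hC g₁ g₂ := by
    have h1 := h.tb g hg C C' hC g₁ g₂
    rw [← trn_amp lam j] at h1
    simpa only [amp_mul, ← ampH_ap] using h1

end out

/-! ### Both legs -/

section both

variable {k Γ K ι Q : Type} [NontriviallyNormedField k] [ProperSpace k] [IsUltrametricDist k]
  [Group Γ] [NormedAddCommGroup K] [InnerProductSpace ℂ K] [CompleteSpace K] [Fintype ι]
  [Group Q] [Fintype Q] {m : ℕ}

/-- `RC.Pic2` for a family of vectors -/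
structure Pic2F {G : Type} [Group G] [TopologicalSpace G] (π : G →* (K →L[ℂ] K))
    (lam₁ lam₂ : Γ →* (K →L[ℂ] K)) (X : Set (K →L[ℂ] K)) (Ω : ι → K) : Prop where
  leg₁ : PicF π lam₁ (X ∪ Set.range lam₂) Ω
  leg₂ : PicF π lam₂ (X ∪ Set.range lam₁) Ω
  Xadj : ∀ x ∈ X, adjoint x ∈ X
  XP : ∀ x ∈ X, ∀ g, π g * x * π g⁻¹ ∈ X

/-- `RC.Ana` for a family of vectors -/
structure AnaF (m : ℕ) (π : GG k m →* (K →L[ℂ] K)) (lam₁ lam₂ : Γ →* (K →L[ℂ] K))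
    (X : Set (K →L[ℂ] K)) (Ω : ι → K) (q₁ q₂ : Γ →* GG k m)
    (E₁ E₂ : Clopens (YY k m) → (K →L[ℂ] K)) : Prop where
  emb₁ : Emb q₁
  emb₂ : Emb q₂
  lim₁ : Lim π lam₁ (X ∪ Set.range lam₂) q₁ y0 E₁
  lim₂ : Lim π lam₂ (X ∪ Set.range lam₁) q₂ y0 E₂
  comm : ∀ C C', E₁ C * E₂ C' = E₂ C' * E₁ C
  hat₁ : ∃ U a, HatF π lam₁ (X ∪ Set.range lam₂ ∪ Set.range E₂) Ω q₁ cc y0 E₁ U a
  hat₂ : ∃ U a, HatF π lam₂ (X ∪ Set.range lam₁ ∪ Set.range E₁) Ω q₂ cc y0 E₂ U a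

variable {π : GG k m →* (K →L[ℂ] K)} {lam₁ lam₂ : Γ →* (K →L[ℂ] K)} {X : Set (K →L[ℂ] K)}
  {Ω : ι → K} {q₁ q₂ : Γ →* GG k m} {E₁ E₂ : Clopens (YY k m) → (K →L[ℂ] K)}

theorem range_ampH {D : Type} [Group D] (ρ : D →* (K →L[ℂ] K)) :
    Set.range (ampH Q ρ) = Set.range fun y => amp (Q := Q) (ρ y) := rfl

theorem AnaF.amp (h : AnaF m π lam₁ lam₂ X Ω q₁ q₂ E₁ E₂) (j : ι ↪ Q) :
    Ana m (ampH Q π) (ampH Q lam₁) (ampH Q lam₂) (ampW Q X) (ampO j Ω) q₁ q₂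
      (fun C => amp (Q := Q) (E₁ C)) (fun C => amp (Q := Q) (E₂ C)) where
  emb₁ := h.emb₁
  emb₂ := h.emb₂
  lim₁ := by
    have h1 := h.lim₁.amp (Q := Q)
    rwa [ampW_union, ← range_ampH] at h1
  lim₂ := by
    have h1 := h.lim₂.amp (Q := Q)
    rwa [ampW_union, ← range_ampH] at h1
  comm C C' := amp_comm_iff.2 (h.comm C C')
  hat₁ := by
    obtain ⟨U, a, h1⟩ := h.hat₁
    have h2 := h1.amp j
    rw [ampW_union, ampW_union, ← range_ampH] at h2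
    exact ⟨U, _, h2⟩
  hat₂ := by
    obtain ⟨U, a, h1⟩ := h.hat₂
    have h2 := h1.amp j
    rw [ampW_union, ampW_union, ← range_ampH] at h2
    exact ⟨U, _, h2⟩

end both

section back

variable {k Γ K Q : Type} [NontriviallyNormedField k] [ProperSpace k] [IsUltrametricDist k]
  [ContinuousConstSMul (GG k 2) (LL k)] [Group Γ] [NormedAddCommGroup K] [InnerProductSpace ℂ K]
  [CompleteSpace K] [Group Q] [Fintype Q] {π : GG k 2 →* (K →L[ℂ] K)}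
  {lam₁ lam₂ : Γ →* (K →L[ℂ] K)} {X : Set (K →L[ℂ] K)} {q₁ q₂ : Γ →* GG k 2}
  {F₁ F₂ : Clopens (LL k) → (KT Q K →L[ℂ] KT Q K)}

/-- **Back to the picture without matrices.** -/
theorem Out.unamp (h : Out (ampH Q π) (ampH Q lam₁) (ampH Q lam₂) (ampW Q X) q₁ q₂ F₁ F₂) :
    ∃ F₁' F₂' : Clopens (LL k) → (K →L[ℂ] K), Out π lam₁ lam₂ X q₁ q₂ F₁' F₂' := by
  have e₁ : ∀ C, ∃ T, F₁ C = amp T ∧ Cm (X ∪ Set.range lam₂) T := fun C => by
    have h1 := h.cm₁ C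
    rw [range_ampH, ← ampW_union] at h1
    exact cm_ampW.1 h1
  have e₂ : ∀ C, ∃ T, F₂ C = amp T ∧ Cm (X ∪ Set.range lam₁) T := fun C => by
    have h1 := h.cm₂ C
    rw [range_ampH, ← ampW_union] at h1
    exact cm_ampW.1 h1
  choose F₁' a₁ b₁ using e₁
  choose F₂' a₂ b₂ using e₂
  have hcpv : ∀ {F : Clopens (LL k) → (KT Q K →L[ℂ] KT Q K)} {F' : Clopens (LL k) → (K →L[ℂ] K)},
      (∀ C, F C = amp (F' C)) → Cpv F → Cpv F' := by
    intro F F' hF hc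
    refine ⟨fun C => ?_, fun C D => ?_, fun C => ?_⟩
    · have h1 := hc.sa C
      rw [hF, star_eq_adjoint, adjoint_amp] at h1
      exact amp_inj h1
    · have h1 := hc.inf C D
      rw [hF, hF, hF, ← amp_mul] at h1
      exact amp_inj h1
    · have h1 := hc.compl C
      rw [hF, hF, ← amp_one, ← amp_sub] at h1
      exact amp_inj h1
  refine ⟨F₁', F₂', ⟨h.emb₁, h.emb₂, hcpv a₁ h.cpv₁, hcpv a₂ h.cpv₂, b₁, b₂, fun γ C => ?_,
    fun γ C => ?_, fun p hp C => ?_, fun p hp C => ?_, fun g C C' => ?_, fun g C C' => ?_,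
    fun g C C' => ?_⟩⟩
  · have h1 := h.cov₁ γ C
    rw [a₁, a₁, ampH_ap, ampH_ap, ← amp_mul, ← amp_mul] at h1
    exact amp_inj h1
  · have h1 := h.cov₂ γ C
    rw [a₂, a₂, ampH_ap, ampH_ap, ← amp_mul, ← amp_mul] at h1
    exact amp_inj h1
  · have h1 := h.par₁ p hp C
    rw [a₁, ampH_ap] at h1
    exact amp_comm_iff.1 h1
  · have h1 := h.par₂ p hp C
    rw [a₂, ampH_ap] at h1
    exact amp_comm_iff.1 h1
  · have h1 := h.comm₁ g C C'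
    rw [a₁, a₁, ampH_ap, ampH_ap, ← amp_mul, ← amp_mul] at h1
    exact amp_comm_iff.1 h1
  · have h1 := h.comm₂ g C C'
    rw [a₂, a₂, ampH_ap, ampH_ap, ← amp_mul, ← amp_mul] at h1
    exact amp_comm_iff.1 h1
  · have h1 := h.comm₁₂ g C C'
    rw [a₁, a₂, ampH_ap, ampH_ap, ← amp_mul, ← amp_mul] at h1
    exact amp_comm_iff.1 h1

end back

end Vale.Agent.P092.RC
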