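import Vale.Agent.P092.H866.T.Lift
import Vale.Agent.P092.H962.MT4

/-!
P092, all amplifications (helper962): irreducibility of the three representations of `Γ` on
`HH(α, β, γ)`, from helper866's theorem for the trivial place.
-/

set_option linter.all false

open scoped InnerProductSpace Topology ENNReal
open Filter ContinuousLinearMap

namespace Vale.Agent.P092.H962

open H160 H103 H333

theorem fd_unit {Γ : Type} [Group Γ] : Vale.Agent.P092.H866.FD (1 : Γ →* Unit) := by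
  intro n π _ h w
  have h1 : comap (1 : Γ →* Unit) (𝓝 1) = ⊤ := by
    refine top_le_iff.1 fun s hs => ?_
    obtain ⟨t, ht, hts⟩ := mem_comap.1 hs
    refine mem_top.2 (Set.eq_univ_of_forall fun x => hts ?_)
    have h1 : (1 : Unit) ∈ t := mem_of_mem_nhds ht
    exact h1
  ext i j
  have h2 := h i j
  rw [h1] at h2
  have h3 : pure w ≤ (⊤ : Filter Γ) := le_top
  have h4 := h2.mono_left h3
  exact tendsto_nhds_unique (tendsto_pure_nhds _ _) h4

/-- **The three representations of `Γ` on the amplified model are irreducible together.** -/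
theorem irr_HH {Γ Λ I J K : Type} [Group Γ] [Group Λ] [Fintype I] [Fintype J] [Fintype K]
    {α : Γ → (Ell2 (I × Λ) →L[ℂ] Ell2 (I × Λ))} {β : Γ → (Ell2 (J × Λ) →L[ℂ] Ell2 (J × Λ))}
    {γ : Γ → (Ell2 (K × Λ) →L[ℂ] Ell2 (K × Λ))}
    (hΓ : ∀ g : Γ, g ≠ 1 → Set.Infinite {y : Γ | ∃ h, y = h * g * h⁻¹})
    (hΛ : ∀ s : Λ, s ≠ 1 → Set.Infinite {y : Λ | ∃ h, y = h * s * h⁻¹})
    (hα : AF α) (hβ : AF β) (hγ : AF γ) {x : HH (PT α β γ) →L[ℂ] HH (PT α β γ)}
    (h0 : ∀ g, x * V3 hα hβ hγ g = V3 hα hβ hγ g * x)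
    (h1 : ∀ g, x * A3R hα hβ hγ g = A3R hα hβ hγ g * x)
    (h2 : ∀ g, x * B3R hα hβ hγ g = B3R hα hβ hγ g * x) :
    ∃ c : ℂ, x = c • (1 : HH (PT α β γ) →L[ℂ] HH (PT α β γ)) := by
  have hU : Vale.Agent.P092.H866.T.ErgC α (1 : Γ →* Unit) := by
    refine Vale.Agent.P092.H866.T.ergC hα hΛ (fun h hh => (hΓ h hh).mono ?_) ?_ fd_unit ?_
    · rintro _ ⟨g, rfl⟩
      exact ⟨g, trivial, rfl⟩
    · have hs : Function.Surjective (1 : Γ →* Unit) := fun u => ⟨1, rfl⟩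
      exact hs.denseRange
    · intro g hg N hN
      refine (hΓ g hg).mono ?_
      rintro _ ⟨w, rfl⟩
      exact ⟨w, mem_of_mem_nhds hN, rfl⟩
  refine Vale.Agent.P092.H866.T.erg_HH_ct hΛ hα hβ hγ hU (P := PT α β γ) rfl
    (V3_val hα hβ hγ) (A3R_val hα hβ hγ) (B3R_val hα hβ hγ) h1 h2 fun ξ ε hε => ?_
  refine ⟨Set.univ, univ_mem, fun v _ => ?_⟩
  have e1 : V3 hα hβ hγ v * V3 hα hβ hγ v⁻¹ = 1 := by
    rw [← map_mul, mul_inv_cancel, map_one]
  have e2 : V3 hα hβ hγ v * x * V3 hα hβ hγ v⁻¹ - x = 0 := by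
    rw [← h0, mul_assoc, e1, mul_one, sub_self]
  rw [e2, ContinuousLinearMap.zero_apply, norm_zero]
  exact hε.le

end Vale.Agent.P092.H962
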