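import Vale.Agent.P092.H962.C.CoreT
import Vale.Agent.P092.H962.C.Irr
import Vale.Agent.P092.H34.AmpF
import Vale.Agent.P092.H34.PicE
import Vale.Agent.P092.H421.Hs7

/-!
P092, all amplifications (helper962): the picture of both legs on `L²(E/Γ; HH(α, β, γ))`, for every
locally compact second countable group `E` and every discrete subgroup with an invariant
probability measure (fields by helper34 and helper421), and `PicStmtT`.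
-/

set_option linter.all false

open scoped InnerProductSpace ENNReal
open Filter Topology ContinuousLinearMap MeasureTheory TopologicalSpace Matrix

namespace Vale.Agent.P092.RC

open Vale.Agent.P092.SR Vale.Agent.P092.H160 Vale.Agent.P092.H103 Vale.Agent.P092.H962
open Vale.Agent.P092.H333.Amp Vale.Agent.P092.H85 Vale.Agent.P092.H790 Vale.Agent.P092.H34
open Vale.Agent.P092.H34.Ind (Xset wset_eq Wset conj_mem_Wset adjoint_mem_Wset lam_comm_Wset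
  adjoint_pi adjoint_lam pi_lam cm_iff pi_ind pi_mul_inv)
open Vale.Agent.P092.H34.AmpE

theorem inv_fin {κ Γ G K : Type} [Fintype κ] [Group Γ] [Group G] [NormedAddCommGroup K]
    [InnerProductSpace ℂ K] [CompleteSpace K] {π : G →* (K →L[ℂ] K)} {lam : Γ →* (K →L[ℂ] K)}
    {W : Set (K →L[ℂ] K)} (Ω' : κ → K) (h1 : ∑ i, ‖Ω' i‖ ^ 2 = 1)
    (h2 : ∀ T, Cm W T → (∀ g, T * π g = π g * T) → ∀ γ,
      ∑ i, ⟪Ω' i, (lam γ * T * lam γ⁻¹) (Ω' i)⟫_ℂ = ∑ i, ⟪Ω' i, T (Ω' i)⟫_ℂ) :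
    ∃ (n : ℕ) (Ω' : Fin n → K), ∑ i, ‖Ω' i‖ ^ 2 = 1 ∧
      ∀ T, Cm W T → (∀ g, T * π g = π g * T) → ∀ γ,
      ∑ i, ⟪Ω' i, (lam γ * T * lam γ⁻¹) (Ω' i)⟫_ℂ = ∑ i, ⟪Ω' i, T (Ω' i)⟫_ℂ := by
  refine ⟨Fintype.card κ, fun i => Ω' ((Fintype.equivFin κ).symm i), ?_, fun T hT hc γ => ?_⟩
  · rw [← h1]
    exact (Fintype.equivFin κ).symm.sum_comp fun i => ‖Ω' i‖ ^ 2
  · have e1 := (Fintype.equivFin κ).symm.sum_comp fun i =>
      ⟪Ω' i, (lam γ * T * lam γ⁻¹) (Ω' i)⟫_ℂ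
    have e2 := (Fintype.equivFin κ).symm.sum_comp fun i => ⟪Ω' i, T (Ω' i)⟫_ℂ
    exact e1.trans ((h2 T hT hc γ).trans e2.symm)

section gen

variable {E : Type} [Group E] [TopologicalSpace E] [IsTopologicalGroup E] [LocallyCompactSpace E]
  [SecondCountableTopology E] [T2Space E] [MeasurableSpace E] [BorelSpace E]
  {Γ : Subgroup E} [DiscreteTopology Γ] [Countable Γ] [MeasurableSpace (E ⧸ Γ)]
  [BorelSpace (E ⧸ Γ)] {ν : Measure (E ⧸ Γ)} [IsProbabilityMeasure ν]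
  (hν : ∀ g : E, ν.map (fun x => g • x) = ν)

section leg

variable {ℋ : Type} [NormedAddCommGroup ℋ] [InnerProductSpace ℂ ℋ] [CompleteSpace ℋ]
  {V R₁ R₂ : Γ →* (ℋ →L[ℂ] ℋ)} (hV : ∀ v, adjoint (V v) = V v⁻¹)
  {B : Type} [Countable B] (b : HilbertBasis B ℂ ℋ) {ι κ : Type} [Fintype ι] [Fintype κ]
  {ξ : ι → ℋ} {ζ : κ → ℋ}

theorem wp_tri (h : Tri V R₁ R₂ ξ) :
    ∀ w ∈ Xset (cdat ν hν) ℋ ∪ Set.range (Ind.lam (cdat ν hν) R₂), ∀ g,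
      Ind.pi (cdat ν hν) hV g * w * Ind.pi (cdat ν hν) hV g⁻¹ ∈
        Xset (cdat ν hν) ℋ ∪ Set.range (Ind.lam (cdat ν hν) R₂) := by
  rw [wset_eq]
  intro w hw g
  refine conj_mem_Wset (cdat ν hν) hV ?_ g hw
  rintro _ ⟨s, rfl⟩ v
  exact (h.comm₂ v s).symm

include b in
/-- **The picture of one leg**, up to the field `hs_erg`. -/
theorem picF_of (h : Tri V R₁ R₂ ξ) (h' : Tri R₁ V R₂ ζ)
    (irr : ∀ A : ℋ →L[ℂ] ℋ, (∀ v, A * V v = V v * A) → (∀ g, A * R₁ g = R₁ g * A) →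
      (∀ g, A * R₂ g = R₂ g * A) → ∃ z : ℂ, A = z • (1 : ℋ →L[ℂ] ℋ))
    (hs : ∀ S : Set E, Moore S → ∀ T,
      Cm (Xset (cdat ν hν) ℋ ∪ Set.range (Ind.lam (cdat ν hν) R₂)) T →
      TRNF (Ind.lam (cdat ν hν) R₁) (nrm hν ξ) T < ∞ →
      (∀ g ∈ S, T * Ind.pi (cdat ν hν) hV g = Ind.pi (cdat ν hν) hV g * T) → T = 0) :
    PicF (Ind.pi (cdat ν hν) hV) (Ind.lam (cdat ν hν) R₁)
      (Xset (cdat ν hν) ℋ ∪ Set.range (Ind.lam (cdat ν hν) R₂)) (nrm hν ξ) where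
  adjP := adjoint_pi (cdat ν hν) hV
  contP := AmpE.cont_pi hν hV
  adjL := adjoint_lam (cdat ν hν) h.adj₁
  comm g γ := pi_lam (cdat ν hν) hV h.comm₁ g γ
  Wadj := by
    rw [wset_eq]
    intro w hw
    refine adjoint_mem_Wset (cdat ν hν) ?_ hw
    rintro _ ⟨g, rfl⟩
    exact ⟨g⁻¹, (h.adj₂ g).symm⟩
  WP := wp_tri hν hV h
  WL := by
    rw [wset_eq]
    intro w hw γ
    refine (lam_comm_Wset (cdat ν hν) ?_ γ hw).symm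
    rintro _ ⟨s, rfl⟩ γ
    exact (h.comm₁₂ γ s).symm
  nΩ := sum_nrm hν h.ne
  erg S hS T hT h1 hc := erg_tri hν hV b h irr hS hT h1 hc
  tr_adj T hT := tr_adj_tri hν b h hT
  tr_conj T hT g := tr_conj_tri hν hV b h hT g
  tr_zero T hT h0 := tr_zero_tri hν b h hT h0
  hs_erg := hs
  inv := inv_fin (nrm hν ζ) (sum_nrm hν h'.ne) fun T hT hc γ =>
    inv_tri hν hV b h'.comm₁₂ h.comm₁ h.comm₁₂ h.adj₁ h.adj₂ (frq_two h') hT hc γ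

end leg

/-! ### The amplified model -/

variable {Λ I J K : Type} [Group Λ] [Countable Λ] [Fintype I] [Fintype J] [Fintype K]
  {α : Γ → (Ell2 (I × Λ) →L[ℂ] Ell2 (I × Λ))} {β : Γ → (Ell2 (J × Λ) →L[ℂ] Ell2 (J × Λ))}
  {γ : Γ → (Ell2 (K × Λ) →L[ℂ] Ell2 (K × Λ))} (hα : AF α) (hβ : AF β) (hγ : AF γ)

omit [DiscreteTopology Γ] [Countable Γ] [LocallyCompactSpace E] [SecondCountableTopology E]
  [T2Space E] [MeasurableSpace E] [BorelSpace E] [MeasurableSpace (E ⧸ Γ)]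
  [BorelSpace (E ⧸ Γ)] [Countable Λ] in
/-- the Parseval family for the source and the first target -/
theorem exists_tri'' (hΛ : ∀ s : Λ, s ≠ 1 → Set.Infinite {y : Λ | ∃ h, y = h * s * h⁻¹}) :
    ∃ (κ : Type) (_ : Fintype κ) (ζ : κ → HH (PT α β γ)),
      Tri (B3R hα hβ hγ) (V3 hα hβ hγ) (A3R hα hβ hγ) ζ := by
  obtain ⟨m, m', ζ, h⟩ := exists_tri' hα hγ hβ hΛ
  exact ⟨_, inferInstance, _, (swap_AU (β := γ) (γ := β) hα).tri (swU_A hα hγ hβ)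
    (swU_V hα hγ hβ) (swU_B hα hγ hβ) (fun c => rfl) h⟩

theorem nrm_ne {ℋ ι : Type} [NormedAddCommGroup ℋ] [Fintype ι] {ξ : ι → ℋ} (h : ∃ i, ξ i ≠ 0) :
    ((((Real.sqrt (∑ j, ‖ξ j‖ ^ 2))⁻¹ : ℝ) : ℂ)) ≠ 0 := by
  have h3 : 0 < ∑ j, ‖ξ j‖ ^ 2 := by
    obtain ⟨i, hi⟩ := h
    exact Finset.sum_pos' (fun _ _ => sq_nonneg _)
      ⟨i, Finset.mem_univ _, by have := norm_pos_iff.2 hi; positivity⟩
  have h4 : 0 < (Real.sqrt (∑ j, ‖ξ j‖ ^ 2))⁻¹ := by positivity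
  exact_mod_cast h4.ne'

include hν in
theorem hsT₁ [Infinite Γ]
    (hΛ : ∀ s : Λ, s ≠ 1 → Set.Infinite {y : Λ | ∃ h, y = h * s * h⁻¹})
    (hV : ∀ g, adjoint (V3 hα hβ hγ g) = V3 hα hβ hγ g⁻¹)
    {B : Type} [Countable B] (b : HilbertBasis B ℂ (HH (PT α β γ)))
    {ι : Type} [Fintype ι] {ξ : ι → HH (PT α β γ)}
    (h : Tri (V3 hα hβ hγ) (A3R hα hβ hγ) (B3R hα hβ hγ) ξ) (S : Set E) (hS : Moore S)
    (T : Lp (HH (PT α β γ)) 2 (cdat ν hν).μ →L[ℂ] Lp (HH (PT α β γ)) 2 (cdat ν hν).μ)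
    (hT : Cm (Xset (cdat ν hν) (HH (PT α β γ)) ∪
      Set.range (Ind.lam (cdat ν hν) (B3R hα hβ hγ))) T)
    (hf : TRNF (Ind.lam (cdat ν hν) (A3R hα hβ hγ)) (nrm hν ξ) T < ∞)
    (hc : ∀ g ∈ S, T * Ind.pi (cdat ν hν) (V := V3 hα hβ hγ) hV g =
      Ind.pi (cdat ν hν) (V := V3 hα hβ hγ) hV g * T) : T = 0 :=
  H421.HsT.zero_of_commT₁ hν hα hβ hγ hΛ h (nrm_ne h.ne) (hV := hV)
    (fun A hA => hT _ (Or.inl ⟨A, hA, rfl⟩)) (fun g => hT _ (Or.inr ⟨g, rfl⟩)) hf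
    (H421.HsT.comm_of_mooreF (wp_tri hν hV h) (fun T hT g => tr_conj_tri hν hV b h hT g)
      (adjoint_pi (cdat ν hν) hV) (AmpE.cont_pi hν hV) (fun T hT h0 => tr_zero_tri hν b h hT h0)
      hS hT hf hc)

include hν in
theorem hsT₂ [Infinite Γ]
    (hΛ : ∀ s : Λ, s ≠ 1 → Set.Infinite {y : Λ | ∃ h, y = h * s * h⁻¹})
    (hV : ∀ g, adjoint (V3 hα hβ hγ g) = V3 hα hβ hγ g⁻¹)
    {B : Type} [Countable B] (b : HilbertBasis B ℂ (HH (PT α β γ)))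
    {ι : Type} [Fintype ι] {ξ : ι → HH (PT α β γ)}
    (h : Tri (V3 hα hβ hγ) (A3R hα hβ hγ) (B3R hα hβ hγ) ξ)
    (h₂ : Tri (V3 hα hβ hγ) (B3R hα hβ hγ) (A3R hα hβ hγ) ξ) (S : Set E) (hS : Moore S)
    (T : Lp (HH (PT α β γ)) 2 (cdat ν hν).μ →L[ℂ] Lp (HH (PT α β γ)) 2 (cdat ν hν).μ)
    (hT : Cm (Xset (cdat ν hν) (HH (PT α β γ)) ∪
      Set.range (Ind.lam (cdat ν hν) (A3R hα hβ hγ))) T)
    (hf : TRNF (Ind.lam (cdat ν hν) (B3R hα hβ hγ)) (nrm hν ξ) T < ∞)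
    (hc : ∀ g ∈ S, T * Ind.pi (cdat ν hν) (V := V3 hα hβ hγ) hV g =
      Ind.pi (cdat ν hν) (V := V3 hα hβ hγ) hV g * T) : T = 0 :=
  H421.HsT.zero_of_commT₂ hν hα hβ hγ hΛ h (nrm_ne h.ne) (hV := hV)
    (fun A hA => hT _ (Or.inl ⟨A, hA, rfl⟩)) (fun g => hT _ (Or.inr ⟨g, rfl⟩)) hf
    (H421.HsT.comm_of_mooreF (wp_tri hν hV h₂) (fun T hT g => tr_conj_tri hν hV b h₂ hT g)
      (adjoint_pi (cdat ν hν) hV) (AmpE.cont_pi hν hV) (fun T hT h0 => tr_zero_tri hν b h₂ hT h0)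
      hS hT hf hc)

include hν in
/-- **The picture of both legs, all amplifications, every group `E`.** -/
theorem pic2F_HH [NoncompactSpace E]
    (hΓ : ∀ g : Γ, g ≠ 1 → Set.Infinite {y : Γ | ∃ h, y = h * g * h⁻¹})
    (hΛ : ∀ s : Λ, s ≠ 1 → Set.Infinite {y : Λ | ∃ h, y = h * s * h⁻¹})
    (hV : ∀ g, adjoint (V3 hα hβ hγ g) = V3 hα hβ hγ g⁻¹)
    {ι : Type} [Fintype ι] {ξ : ι → HH (PT α β γ)}
    (h : Tri (V3 hα hβ hγ) (A3R hα hβ hγ) (B3R hα hβ hγ) ξ) :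
    Pic2F (Ind.pi (cdat ν hν) (V := V3 hα hβ hγ) hV) (Ind.lam (cdat ν hν) (A3R hα hβ hγ))
      (Ind.lam (cdat ν hν) (B3R hα hβ hγ)) (Xset (cdat ν hν) (HH (PT α β γ))) (nrm hν ξ) := by
  haveI : Infinite Γ := PicC.infinite_lat hν
  obtain ⟨w, b, hw⟩ := H421.HsT.exists_basisHH (P := PT α β γ)
  obtain ⟨m, m', ζ, h'⟩ := exists_tri' hα hβ hγ hΛ
  obtain ⟨κ, _, ζ', h''⟩ := exists_tri'' hα hβ hγ hΛ
  have hsw := tri_swap' h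
  have xadj : ∀ x ∈ Xset (cdat ν hν) (HH (PT α β γ)), adjoint x ∈
      Xset (cdat ν hν) (HH (PT α β γ)) := by
    rintro _ ⟨S, hS, rfl⟩
    exact ⟨S, hS, adjoint_ind hS⟩
  have xp : ∀ x ∈ Xset (cdat ν hν) (HH (PT α β γ)), ∀ g,
      Ind.pi (cdat ν hν) (V := V3 hα hβ hγ) hV g * x *
        Ind.pi (cdat ν hν) (V := V3 hα hβ hγ) hV g⁻¹ ∈ Xset (cdat ν hν) (HH (PT α β γ)) := by
    rintro _ ⟨S, hS, rfl⟩ g
    refine ⟨_, ((cdat ν hν).mp g⁻¹).measurable hS, ?_⟩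
    rw [pi_ind (cdat ν hν) hV g hS, mul_assoc, pi_mul_inv, mul_one]
  exact ⟨picF_of hν hV b h h' (fun A h0 h1 h2 => irr_HH hΓ hΛ hα hβ hγ h0 h1 h2)
      (hsT₁ hν hα hβ hγ hΛ hV b h),
    picF_of hν hV b hsw h'' (fun A h0 h1 h2 => irr_HH hΓ hΛ hα hβ hγ h0 h2 h1)
      (hsT₂ hν hα hβ hγ hΛ hV b h hsw), xadj, xp⟩

end gen

/-- **[C-PIC-T]** -/
theorem picStmtT (m : ℕ) (hm : 1 ≤ m) : PicStmtT m := by
  intro k _ _ _ _ _ _ _ _ Γ _ _ _ _ ν _ hν _ hΓ Λ _ _ hΛ I _ α hα ι _ ξ h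
  have hij : (0 : Fin (m + 1)) ≠ Fin.last m := by
    intro h
    have := congrArg Fin.val h
    simp at this
    omega
  haveI : NoncompactSpace (GG k m) := PicC.sl_noncompact hij
  exact pic2F_HH hν hα hα hα hΓ hΛ (adjV3 hα) h

end Vale.Agent.P092.RC
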