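import Vale.Agent.P092.H962.C.Amp
import Vale.Agent.P092.RC.Core
import Vale.Agent.P092.H58.EndC
import Vale.Agent.P092.H58.FinR

/-!
P092, TEAM C, all amplifications (helper962): the picture on `L²(G/Γ; HH(α, α, α))` and the
assembly of `St.FinalAll` for `n = 3`, modulo the literal statements of the concrete blocks.
-/

set_option linter.all false

open scoped InnerProductSpace ENNReal
open Filter Topology ContinuousLinearMap MeasureTheory TopologicalSpace Matrix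

namespace Vale.Agent.P092.RC

open Vale.Agent.P092.SR Vale.Agent.P092.H160 Vale.Agent.P092.H103 Vale.Agent.P092.H962
open Vale.Agent.P092.H333.Amp

section fib

variable {Γ Λ I : Type} [Group Γ] [Group Λ] [Fintype I]
  {α : Γ → (Ell2 (I × Λ) →L[ℂ] Ell2 (I × Λ))} (hα : AF α)

theorem adjV3 (g : Γ) : adjoint (V3 hα hα hα g) = V3 hα hα hα g⁻¹ :=
  cmp_adj (PT_three hα hα hα).1 ((PT_three hα hα hα).2.1 g) ((PT_three hα hα hα).2.1 g⁻¹)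
    (by rw [VT_adj, hα.adj])

end fib

section con

variable {k : Type} [NontriviallyNormedField k] {m : ℕ} [LocallyCompactSpace (GG k m)]
  [SecondCountableTopology (GG k m)] [MeasurableSpace (GG k m)] [BorelSpace (GG k m)]
  {Γ : Subgroup (GG k m)} [DiscreteTopology Γ] [Countable Γ] [MeasurableSpace (GG k m ⧸ Γ)]
  [BorelSpace (GG k m ⧸ Γ)] {ν : Measure (GG k m ⧸ Γ)} [IsProbabilityMeasure ν]
  (hν : ∀ g : GG k m, ν.map (fun x => g • x) = ν)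
  (ℋ : Type) [NormedAddCommGroup ℋ] [InnerProductSpace ℂ ℋ] [CompleteSpace ℋ]

/-- the Hilbert space of the picture, any fibre -/
abbrev KG : Type := Lp ℋ 2 (H85.cdat ν hν).μ

/-- the functions on `G/Γ` -/
def XG : Set (KG hν ℋ →L[ℂ] KG hν ℋ) :=
  {T | ∃ S, MeasurableSet S ∧ T = H790.ind (H85.cdat ν hν).μ ℋ S}

variable {ℋ}

/-- the normalised constant fields of a family -/
noncomputable def OmG {ι : Type} [Fintype ι] (ξ : ι → ℋ) : ι → KG hν ℋ := fun i =>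
  Lp.const 2 (H85.cdat ν hν).μ ((((Real.sqrt (∑ j, ‖ξ j‖ ^ 2))⁻¹ : ℝ) : ℂ) • ξ i)

variable {Λ : Type} [Group Λ] {I : Type} [Fintype I] {α : Γ → (Ell2 (I × Λ) →L[ℂ] Ell2 (I × Λ))}
  (hα : AF α)

/-- the induced representation -/
noncomputable abbrev piT : GG k m →* (KG hν (HH (PT α α α)) →L[ℂ] KG hν (HH (PT α α α))) :=
  H34.Ind.pi (H85.cdat ν hν) (V := V3 hα hα hα) (adjV3 hα)

/-- a representation of `Γ` by constant operators -/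
noncomputable abbrev lamT (R : Γ →* (HH (PT α α α) →L[ℂ] HH (PT α α α))) :
    Γ →* (KG hν (HH (PT α α α)) →L[ℂ] KG hν (HH (PT α α α))) :=
  H34.Ind.lam (H85.cdat ν hν) R

end con

/-- [C-PIC-T] the picture, all amplifications -/
def PicStmtT (m : ℕ) : Prop :=
  ∀ (k : Type) [NontriviallyNormedField k] [ProperSpace k] [IsUltrametricDist k] [CharZero k]
    [LocallyCompactSpace (GG k m)] [SecondCountableTopology (GG k m)] [MeasurableSpace (GG k m)]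
    [BorelSpace (GG k m)] {Γ : Subgroup (GG k m)} [DiscreteTopology Γ] [Countable Γ]
    [MeasurableSpace (GG k m ⧸ Γ)] [BorelSpace (GG k m ⧸ Γ)] {ν : Measure (GG k m ⧸ Γ)}
    [IsProbabilityMeasure ν] (hν : ∀ g : GG k m, ν.map (fun x => g • x) = ν)
    (_ : H515.St.IsLattice Γ) (_ : ∀ g : Γ, g ≠ 1 → Set.Infinite {y : Γ | ∃ h, y = h * g * h⁻¹})
    {Λ : Type} [Group Λ] [Countable Λ]
    (_ : ∀ g : Λ, g ≠ 1 → Set.Infinite {y : Λ | ∃ h, y = h * g * h⁻¹})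
    {I : Type} [Fintype I] {α : Γ → (Ell2 (I × Λ) →L[ℂ] Ell2 (I × Λ))} (hα : AF α)
    {ι : Type} [Fintype ι] (ξ : ι → HH (PT α α α)),
    Tri (V3 hα hα hα) (A3R hα hα hα) (B3R hα hα hα) ξ →
    Pic2F (piT hν hα) (lamT hν (A3R hα hα hα)) (lamT hν (B3R hα hα hα))
      (XG hν (HH (PT α α α))) (OmG hν ξ)

/-- [C-ANA-T] the output of the analysis, all amplifications -/
def AnaStmtT (m : ℕ) : Prop :=
  ∀ (k : Type) [NontriviallyNormedField k] [ProperSpace k] [IsUltrametricDist k] [CharZero k]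
    [LocallyCompactSpace (GG k m)] [SecondCountableTopology (GG k m)] [MeasurableSpace (GG k m)]
    [BorelSpace (GG k m)] {Γ : Subgroup (GG k m)} [DiscreteTopology Γ] [Countable Γ]
    [MeasurableSpace (GG k m ⧸ Γ)] [BorelSpace (GG k m ⧸ Γ)] {ν : Measure (GG k m ⧸ Γ)}
    [IsProbabilityMeasure ν] (hν : ∀ g : GG k m, ν.map (fun x => g • x) = ν)
    (_ : H515.St.IsLattice Γ) (_ : ∀ g : Γ, g ≠ 1 → Set.Infinite {y : Γ | ∃ h, y = h * g * h⁻¹})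
    {Λ : Type} [Group Λ] [Countable Λ]
    (_ : ∀ g : Λ, g ≠ 1 → Set.Infinite {y : Λ | ∃ h, y = h * g * h⁻¹})
    {I : Type} [Fintype I] {α : Γ → (Ell2 (I × Λ) →L[ℂ] Ell2 (I × Λ))} (hα : AF α)
    {ι : Type} [Fintype ι] (ξ : ι → HH (PT α α α)),
    Tri (V3 hα hα hα) (A3R hα hα hα) (B3R hα hα hα) ξ →
    ∃ (q₁ q₂ : Γ →* GG k m)
      (E₁ E₂ : Clopens (YY k m) → (KG hν (HH (PT α α α)) →L[ℂ] KG hν (HH (PT α α α)))),
      AnaF m (piT hν hα) (lamT hν (A3R hα hα hα)) (lamT hν (B3R hα hα hα))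
        (XG hν (HH (PT α α α))) (OmG hν ξ) q₁ q₂ E₁ E₂

/-! ### The blocks of the middle, for the picture with the existential form of `inv` -/

/-- `ResStmt` for `PicX` -/
def ResX (m : ℕ) : Prop :=
  ∀ (k : Type) [NontriviallyNormedField k] [ProperSpace k] [IsUltrametricDist k] [CharZero k]
    {Γ K : Type} [Group Γ] [NormedAddCommGroup K] [InnerProductSpace ℂ K] [CompleteSpace K]
    (π : GG k m →* (K →L[ℂ] K)) (lam : Γ →* (K →L[ℂ] K)) (W W' : Set (K →L[ℂ] K)) (Ω : K)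
    (q : Γ →* GG k m) (E : Clopens (YY k m) → (K →L[ℂ] K)) (U : Subgroup (PG k m))
    (a : PG k m → (K →L[ℂ] K)),
    Emb q → PicX π lam W Ω → Lim π lam W q y0 E → Ext π lam W W' (y0 : YY k m) E →
    Hat π lam W' Ω q cc y0 E U a →
    ∃ (δ : GG k m → PG k m) (Q : Set (YY k m × PG k m) → (K →L[ℂ] K)),
      ZFam π lam W' Ω q cc y0 E δ Q

/-- `LineStmt` for `PicX` -/
def LineX : Prop :=
  ∀ (k : Type) [NontriviallyNormedField k] [ProperSpace k] [IsUltrametricDist k] [CharZero k]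
    [ContinuousConstSMul (GG k 2) (LL k)]
    {Γ K : Type} [Group Γ] [NormedAddCommGroup K] [InnerProductSpace ℂ K] [CompleteSpace K]
    (π : GG k 2 →* (K →L[ℂ] K)) (lam : Γ →* (K →L[ℂ] K)) (W W' : Set (K →L[ℂ] K)) (Ω : K)
    (q : Γ →* GG k 2) (E : Clopens (YY k 2) → (K →L[ℂ] K)) (δ : GG k 2 → PG k 2)
    (Q : Set (YY k 2 × PG k 2) → (K →L[ℂ] K)),
    Emb q → PicX π lam W Ω → Lim π lam W q y0 E → Ext π lam W W' (y0 : YY k 2) E →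
    ZFam π lam W' Ω q cc y0 E δ Q →
    ∃ F : Clopens (LL k) → (K →L[ℂ] K), LFam π lam W q (y0 : YY k 2) inc l0 Q F

/-- `CrossStmt` for `PicX`, without the commutativity of `X` -/
def CrossX (m : ℕ) : Prop :=
  ∀ (k : Type) [NontriviallyNormedField k] [ProperSpace k] [IsUltrametricDist k] [CharZero k]
    {Γ K : Type} [Group Γ] [NormedAddCommGroup K] [InnerProductSpace ℂ K] [CompleteSpace K]
    (π : GG k m →* (K →L[ℂ] K)) (lam₁ lam₂ : Γ →* (K →L[ℂ] K)) (X : Set (K →L[ℂ] K)) (Ω : K)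
    (q₁ q₂ : Γ →* GG k m) (E₁ E₂ : Clopens (YY k m) → (K →L[ℂ] K)) (δ₁ δ₂ : GG k m → PG k m)
    (Q₁ Q₂ : Set (YY k m × PG k m) → (K →L[ℂ] K)),
    Emb q₁ → Emb q₂ → PicX π lam₁ (X ∪ Set.range lam₂) Ω → PicX π lam₂ (X ∪ Set.range lam₁) Ω →
    (∀ x ∈ X, adjoint x ∈ X) → (∀ x ∈ X, ∀ g, π g * x * π g⁻¹ ∈ X) →
    Lim π lam₁ (X ∪ Set.range lam₂) q₁ y0 E₁ → Lim π lam₂ (X ∪ Set.range lam₁) q₂ y0 E₂ →
    (∀ C C', E₁ C * E₂ C' = E₂ C' * E₁ C) →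
    ZFam π lam₁ (X ∪ Set.range lam₂ ∪ Set.range E₂) Ω q₁ cc y0 E₁ δ₁ Q₁ →
    ZFam π lam₂ (X ∪ Set.range lam₁ ∪ Set.range E₁) Ω q₂ cc y0 E₂ δ₂ Q₂ →
    ∀ C C', SR.CO C → SR.CO C' → Q₁ C * Q₂ C' = Q₂ C' * Q₁ C

theorem ext_ofX {G Γ Y K : Type} [Group G] [TopologicalSpace G] [Group Γ] [TopologicalSpace Y]
    [MulAction G Y] [ContinuousConstSMul G Y] [NormedAddCommGroup K] [InnerProductSpace ℂ K]
    [CompleteSpace K] {π : G →* (K →L[ℂ] K)} {lam lam' : Γ →* (K →L[ℂ] K)} {W W₂ : Set (K →L[ℂ] K)}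
    {Ω : K} {q q' : Γ →* G} {y₀ : Y} {E E' : Clopens Y → (K →L[ℂ] K)} (hp : PicX π lam W Ω)
    (hl : Lim π lam W q y₀ E) (hl' : Lim π lam' W₂ q' y₀ E') (hW : Set.range lam ⊆ W₂)
    (hc : ∀ C C', E C * E' C' = E' C' * E C) :
    Ext π lam W (W ∪ Set.range E') y₀ E where
  sub := Set.subset_union_left
  adj := by
    rintro w (hw | ⟨C, rfl⟩)
    · exact Or.inl (hp.Wadj w hw)
    · refine Or.inr ⟨C, ?_⟩
      have := hl'.cpv.sa C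
      rw [star_eq_adjoint] at this
      exact this.symm
  par := by
    rintro w (hw | ⟨C, rfl⟩) p h
    · exact Or.inl (hp.WP w hw p)
    · refine Or.inr ⟨C, ?_⟩
      have e : π p * π p⁻¹ = 1 := by rw [← map_mul, mul_inv_cancel, map_one]
      rw [hl'.par p h C, mul_assoc, e, mul_one]
  lam := by
    rintro w (hw | ⟨C, rfl⟩) γ
    · exact hp.WL w hw γ
    · exact hl'.cm C _ (hW ⟨γ, rfl⟩)
  cE := by
    rintro C w (hw | ⟨C', rfl⟩)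
    · exact hl.cm C w hw
    · exact hc C C'

section mid

variable {k Γ K ι : Type} [NontriviallyNormedField k] [ProperSpace k] [IsUltrametricDist k]
  [ContinuousConstSMul (GG k 2) (LL k)] [Group Γ] [NormedAddCommGroup K] [InnerProductSpace ℂ K]
  [CompleteSpace K] [Fintype ι] {π : GG k 2 →* (K →L[ℂ] K)} {lam₁ lam₂ : Γ →* (K →L[ℂ] K)}
  {X : Set (K →L[ℂ] K)} {q₁ q₂ : Γ →* GG k 2}
  {E₁ E₂ : Clopens (YY k 2) → (K →L[ℂ] K)}

/-- `out_of_ana` for `PicX` -/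
theorem out_of_anaN {Ω : K} [CharZero k] (hG : GeoStmt) (hP : PlaneStmt) (hR : ResX 2)
    (hL : LineX) (hX : CrossX 2) (hp₁ : PicX π lam₁ (X ∪ Set.range lam₂) Ω)
    (hp₂ : PicX π lam₂ (X ∪ Set.range lam₁) Ω) (hXa : ∀ x ∈ X, adjoint x ∈ X)
    (hXP : ∀ x ∈ X, ∀ g, π g * x * π g⁻¹ ∈ X) (ha : Ana 2 π lam₁ lam₂ X Ω q₁ q₂ E₁ E₂) :
    ∃ F₁ F₂ : Clopens (LL k) → (K →L[ℂ] K), Out π lam₁ lam₂ X q₁ q₂ F₁ F₂ := by
  have e₁ : Ext π lam₁ (X ∪ Set.range lam₂) (X ∪ Set.range lam₂ ∪ Set.range E₂) (y0 : YY k 2) E₁ :=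
    ext_ofX hp₁ ha.lim₁ ha.lim₂ Set.subset_union_right ha.comm
  have e₂ : Ext π lam₂ (X ∪ Set.range lam₁) (X ∪ Set.range lam₁ ∪ Set.range E₁) (y0 : YY k 2) E₂ :=
    ext_ofX hp₂ ha.lim₂ ha.lim₁ Set.subset_union_right fun C C' => (ha.comm C' C).symm
  obtain ⟨U₁, a₁, h₁⟩ := ha.hat₁
  obtain ⟨U₂, a₂, h₂⟩ := ha.hat₂
  obtain ⟨δ₁, Q₁, z₁⟩ := hR k π lam₁ _ _ Ω q₁ E₁ U₁ a₁ ha.emb₁ hp₁ ha.lim₁ e₁ h₁
  obtain ⟨δ₂, Q₂, z₂⟩ := hR k π lam₂ _ _ Ω q₂ E₂ U₂ a₂ ha.emb₂ hp₂ ha.lim₂ e₂ h₂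
  obtain ⟨F₁, f₁⟩ := hL k π lam₁ _ _ Ω q₁ E₁ δ₁ Q₁ ha.emb₁ hp₁ ha.lim₁ e₁ z₁
  obtain ⟨F₂, f₂⟩ := hL k π lam₂ _ _ Ω q₂ E₂ δ₂ Q₂ ha.emb₂ hp₂ ha.lim₂ e₂ z₂
  have c₁ : ∀ C C', SR.CO C → SR.CO C' → Q₁ C * Q₁ C' = Q₁ C' * Q₁ C := fun C C' h h' => by
    rw [z₁.mul C C' h h', z₁.mul C' C h' h, Set.inter_comm]
  have c₂ : ∀ C C', SR.CO C → SR.CO C' → Q₂ C * Q₂ C' = Q₂ C' * Q₂ C := fun C C' h h' => by
    rw [z₂.mul C C' h h', z₂.mul C' C h' h, Set.inter_comm]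
  have c₁₂ := hX k π lam₁ lam₂ X Ω q₁ q₂ E₁ E₂ δ₁ δ₂ Q₁ Q₂ ha.emb₁ ha.emb₂ hp₁ hp₂ hXa hXP
    ha.lim₁ ha.lim₂ ha.comm z₁ z₂
  exact ⟨F₁, F₂, ha.emb₁, ha.emb₂, f₁.cpv, f₂.cpv, f₁.cm, f₂.cm, f₁.cov, f₂.cov, f₁.par, f₂.par,
    lines_comm hG hP f₁ f₁ c₁, lines_comm hG hP f₂ f₂ c₂, lines_comm hG hP f₁ f₂ c₁₂⟩

/-- groups of large finite order -/
theorem exists_grp (ι : Type) [Fintype ι] (N : ℕ) :
    ∃ (Q : Type) (_ : Group Q) (_ : Fintype Q), Nonempty (ι ↪ Q) ∧ N ≤ Fintype.card Q := by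
  haveI : NeZero (Fintype.card ι + N + 1) := ⟨by omega⟩
  refine ⟨Multiplicative (ZMod (Fintype.card ι + N + 1)), inferInstance, inferInstance,
    Function.Embedding.nonempty_of_card_le ?_, ?_⟩
  · rw [Fintype.card_multiplicative, ZMod.card]; omega
  · rw [Fintype.card_multiplicative, ZMod.card]; omega

/-- **The middle for a family of vectors.** -/
theorem out_of_anaF {Ω : ι → K} [CharZero k] (hG : GeoStmt) (hP : PlaneStmt) (hR : ResX 2)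
    (hL : LineX) (hX : CrossX 2) (hp : Pic2F π lam₁ lam₂ X Ω)
    (ha : AnaF 2 π lam₁ lam₂ X Ω q₁ q₂ E₁ E₂) :
    ∃ F₁ F₂ : Clopens (LL k) → (K →L[ℂ] K), Out π lam₁ lam₂ X q₁ q₂ F₁ F₂ := by
  obtain ⟨N₁, g₁⟩ := hp.leg₁.exists_amp
  obtain ⟨N₂, g₂⟩ := hp.leg₂.exists_amp
  obtain ⟨Q, _, _, ⟨j⟩, hN⟩ := exists_grp ι (N₁ + N₂)
  have h1 := g₁ Q (by omega) j
  have h2 := g₂ Q (by omega) j
  rw [ampW_union, ← range_ampH] at h1 h2
  obtain ⟨F₁, F₂, h3⟩ := out_of_anaN hG hP hR hL hX h1 h2 (by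
    rintro _ (⟨w, hw, rfl⟩ | ⟨f, rfl⟩)
    · rw [adjoint_amp]
      exact Or.inl ⟨_, hp.Xadj w hw, rfl⟩
    · rw [adjoint_sg]
      exact Or.inr ⟨_, rfl⟩) (by
    rintro _ (⟨w, hw, rfl⟩ | ⟨f, rfl⟩) g
    · rw [ampH_ap, ampH_ap, ← amp_mul, ← amp_mul]
      exact Or.inl ⟨_, hp.XP w hw g, rfl⟩
    · have h1 : π g * π g⁻¹ = 1 := by rw [← map_mul, mul_inv_cancel, map_one]
      rw [ampH_ap, ampH_ap, amp_sg, mul_assoc, ← amp_mul, h1, amp_one, mul_one]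
      exact Or.inr ⟨_, rfl⟩) (ha.amp j)
  exact h3.unamp

end mid

end Vale.Agent.P092.RC
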