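import Vale.Agent.P092.H962.C.PicT
import Vale.Agent.P092.H264.AmpD
import Vale.Agent.P092.H200.Coc
import Vale.Agent.P092.H791.Plane

/-!
P092, TEAM C, all amplifications (helper962): the end (helper264) and the assembly: lattices in
`SL_3(k)`, `k` a non-archimedean local field of characteristic zero.
-/

set_option linter.all false

open scoped InnerProductSpace ENNReal
open Filter Topology ContinuousLinearMap MeasureTheory TopologicalSpace Matrix

namespace Vale.Agent.P092.RC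

open Vale.Agent.P092.SR Vale.Agent.P092.H160 Vale.Agent.P092.H103 Vale.Agent.P092.H962
open Vale.Agent.P092.H333.Amp

/-- the input of the end from the picture with a family of vectors -/
theorem PicF.eleg {G Γ K ι : Type} [Group G] [TopologicalSpace G] [Group Γ]
    [NormedAddCommGroup K] [InnerProductSpace ℂ K] [CompleteSpace K] [Fintype ι]
    {π : G →* (K →L[ℂ] K)} {lam : Γ →* (K →L[ℂ] K)} {W : Set (K →L[ℂ] K)} {Ω : ι → K}
    (h : PicF π lam W Ω) : H264.Amp.ELeg π lam W where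
  adjP := h.adjP
  comm := h.comm
  WP := h.WP
  WL := h.WL
  erg := h.erg
  inv := by
    obtain ⟨n, Ω', h1, h2⟩ := h.inv
    exact ⟨Fin n, inferInstance, Ω', h1, h2⟩

theorem instStmt' : InstStmt := fun k _ => inferInstance

/-- **All amplifications, lattices in `SL_3(k)`.** -/
theorem core3T (hR : ResX 2) (hL : LineX) (hX : CrossX 2) (ha : AnaStmtT 2)
    (k : Type) [NontriviallyNormedField k] [ProperSpace k] [IsUltrametricDist k] [CharZero k]
    (Γ : Subgroup (GG k 2)) (hΓ : H515.St.IsLattice Γ)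
    (hicc : ∀ g : Γ, g ≠ 1 → Set.Infinite {y : Γ | ∃ h, y = h * g * h⁻¹}) :
    SR.St.SuperAll Γ := by
  intro Λ _ _ hΛ n p hpj θ
  haveI := instStmt' k
  haveI h1 : LocallyCompactSpace (GG k 2) := H303.locallyCompact_SL
  haveI h2 : SecondCountableTopology (GG k 2) := H303.secondCountable_SL
  letI : MeasurableSpace (GG k 2) := borel _
  haveI : BorelSpace (GG k 2) := ⟨rfl⟩
  haveI hd : DiscreteTopology Γ := hΓ.disc
  haveI hc : Countable Γ := H790.countable_of_discrete (E := GG k 2) Γ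
  letI : MeasurableSpace (GG k 2 ⧸ Γ) := borel _
  haveI : BorelSpace (GG k 2 ⧸ Γ) := ⟨rfl⟩
  obtain ⟨ν, hP', hν⟩ := H515.IsLattice.exists_prob (Λ := Γ) ⟨hΓ.disc, hΓ.covol⟩
  have hα : AF (H103.alf θ) := H103.af_of hicc hpj θ
  obtain ⟨m, m', ξ, hT⟩ := exists_tri hα hα hα hΛ
  have h3 := picStmtT 2 one_le_two k (Γ := Γ) hν hΓ hicc hΛ hα ξ hT
  obtain ⟨q₁, q₂, E₁, E₂, h4⟩ := ha k (Γ := Γ) hν hΓ hicc hΛ hα ξ hT
  obtain ⟨F₁, F₂, h5⟩ := out_of_anaF H200.Coc.geoStmt H791.planeStmt hR hL hX h3 h4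
  exact H264.Amp.canonM_of_over hicc hΛ hpj θ rfl hα (H264.Amp.over_of_out k hν hicc hT q₁ q₂ F₁ F₂
    (X := XG hν (HH (PT (H103.alf θ) (H103.alf θ) (H103.alf θ)))) (fun S hS => ⟨S, hS, rfl⟩)
    h3.leg₁.eleg h3.leg₂.eleg h5)

/-- `RC.St.FinalAll` for `n = 3` -/
def FinalAll3 : Prop := ∀ (Γ : Type) [Group Γ], St.PadicSimpleLattice3 Γ → SR.St.SuperAll Γ

theorem finalAll3_of (hR : ResX 2) (hL : LineX) (hX : CrossX 2) (ha : AnaStmtT 2) :
    FinalAll3 := by
  intro Γ _ hΓ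
  obtain ⟨hicc, k, _, i, hk, hu, hc, hi, hl⟩ := hΓ
  exact H58.superAll_equiv (MonoidHom.ofInjective hi) (core3T hR hL hX ha k i.range
    hl (H133.icc_equiv (MonoidHom.ofInjective hi) hicc))

end Vale.Agent.P092.RC
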