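import Vale.Agent.P092.H421.Hs1
import Vale.Agent.P092.H421.Hs5

/-!
P092, all amplifications (helper962): the Moore step for an arbitrary family of vectors (after
helper421, `H421/Hs1.lean`): an operator of a commutant with finite trace number which commutes
with `π(S)`, `S` with the Moore property, commutes with `π(G)`.
-/

set_option linter.all false

open scoped InnerProductSpace ENNReal
open Filter Topology ContinuousLinearMap MeasureTheory

namespace Vale.Agent.P092.H962.Mq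

open Vale.Agent.P092.RC Vale.Agent.P092.H421.Hs

variable {G Q K : Type} [Group G] [TopologicalSpace G] [NormedAddCommGroup K]
  [InnerProductSpace ℂ K] [CompleteSpace K] {π : G →* (K →L[ℂ] K)} {e : Q → K}
  {W : Set (K →L[ℂ] K)}

theorem memlp_of_trq {T : K →L[ℂ] K} (h : trq e T < ∞) : Memℓp (fun q : Q => T (e q)) 2 := by
  rw [memℓp_gen_iff (by norm_num)]
  have e1 : ∀ q : Q, ‖T (e q)‖ ^ (ENNReal.toReal 2) = (‖T (e q)‖ₑ ^ 2).toReal := by
    intro q
    rw [ENNReal.toReal_pow, toReal_enorm]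
    norm_num
  simp_rw [e1]
  exact ENNReal.summable_toReal h.ne

theorem norm_lp_sq {T : K →L[ℂ] K} (h : trq e T < ∞) :
    ‖(⟨fun q : Q => T (e q), memlp_of_trq h⟩ : lp (fun _ : Q => K) 2)‖ ^ 2 =
      (trq e T).toReal := by
  have h1 := lp.norm_rpow_eq_tsum (p := 2) (by norm_num)
    (⟨fun q : Q => T (e q), memlp_of_trq h⟩ : lp (fun _ : Q => K) 2)
  have e2 : (ENNReal.toReal 2) = ((2 : ℕ) : ℝ) := by norm_num
  rw [e2, Real.rpow_natCast] at h1
  rw [h1, trq, ENNReal.tsum_toReal_eq fun q => ENNReal.pow_ne_top enorm_ne_top]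
  refine tsum_congr fun q => ?_
  rw [Real.rpow_natCast, ENNReal.toReal_pow, toReal_enorm]

theorem trq_add_lt {S T : K →L[ℂ] K} (hS : trq e S < ∞) (hT : trq e T < ∞) :
    trq e (S + T) < ∞ := by
  have h1 : ∀ q, ‖(S + T) (e q)‖ₑ ^ 2 ≤ 2 * ‖S (e q)‖ₑ ^ 2 + 2 * ‖T (e q)‖ₑ ^ 2 := by
    intro q
    have h2 : ‖(S + T) (e q)‖ ^ 2 ≤ 2 * ‖S (e q)‖ ^ 2 + 2 * ‖T (e q)‖ ^ 2 := by
      have h3 : ‖(S + T) (e q)‖ ≤ ‖S (e q)‖ + ‖T (e q)‖ := norm_add_le _ _
      have h4 : ‖(S + T) (e q)‖ ^ 2 ≤ (‖S (e q)‖ + ‖T (e q)‖) ^ 2 :=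
        pow_le_pow_left₀ (norm_nonneg _) h3 2
      nlinarith [sq_nonneg (‖S (e q)‖ - ‖T (e q)‖)]
    simp only [← ofReal_norm_eq_enorm, ← ENNReal.ofReal_pow (norm_nonneg _)]
    have e2 : (2 : ℝ≥0∞) = ENNReal.ofReal 2 := by norm_num
    rw [e2, ← ENNReal.ofReal_mul (by norm_num), ← ENNReal.ofReal_mul (by norm_num),
      ← ENNReal.ofReal_add (by positivity) (by positivity)]
    exact ENNReal.ofReal_le_ofReal h2
  refine (ENNReal.tsum_le_tsum h1).trans_lt ?_
  rw [ENNReal.tsum_add, ENNReal.tsum_mul_left, ENNReal.tsum_mul_left]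
  exact ENNReal.add_lt_top.2 ⟨ENNReal.mul_lt_top (by norm_num) hS,
    ENNReal.mul_lt_top (by norm_num) hT⟩

theorem trq_smul_lt (c : ℂ) {T : K →L[ℂ] K} (hT : trq e T < ∞) : trq e (c • T) < ∞ := by
  have h1 : ∀ q, ‖(c • T) (e q)‖ₑ ^ 2 = ‖c‖ₑ ^ 2 * ‖T (e q)‖ₑ ^ 2 := by
    intro q
    rw [ContinuousLinearMap.smul_apply, enorm_smul, mul_pow]
  rw [trq]
  simp_rw [h1]
  rw [ENNReal.tsum_mul_left]
  exact ENNReal.mul_lt_top (ENNReal.pow_lt_top enorm_lt_top) hT

/-- The operators of the commutant of finite trace number. -/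
def DD (e : Q → K) (W : Set (K →L[ℂ] K)) : Submodule ℂ (K →L[ℂ] K) where
  carrier := {T | Cm W T ∧ trq e T < ∞}
  zero_mem' := by
    refine ⟨fun w _ => by rw [zero_mul, mul_zero], ?_⟩
    have : trq e (0 : K →L[ℂ] K) = 0 := by
      rw [trq]
      simp
    rw [this]
    exact ENNReal.zero_lt_top
  add_mem' := by
    rintro S T ⟨hS, hS'⟩ ⟨hT, hT'⟩
    exact ⟨fun w hw => by rw [add_mul, mul_add, hS w hw, hT w hw], trq_add_lt hS' hT'⟩
  smul_mem' := by
    rintro c T ⟨hT, hT'⟩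
    exact ⟨fun w hw => by rw [smul_mul_assoc, mul_smul_comm, hT w hw], trq_smul_lt c hT'⟩

/-- the embedding into `ℓ²(Q; K)` -/
noncomputable def jj (e : Q → K) (W : Set (K →L[ℂ] K)) : DD e W →ₗ[ℂ] lp (fun _ : Q => K) 2 where
  toFun T := ⟨fun q => T.1 (e q), memlp_of_trq T.2.2⟩
  map_add' S T := rfl
  map_smul' c T := rfl

theorem norm_jj_sq (T : DD e W) : ‖jj e W T‖ ^ 2 = (trq e T.1).toReal := norm_lp_sq T.2.2

variable (WP : ∀ w ∈ W, ∀ g, π g * w * π g⁻¹ ∈ W)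
  (tr_conj : ∀ T, Cm W T → ∀ g, trq e (π g * T * π g⁻¹) = trq e T)

/-- the action of `G` by conjugation -/
noncomputable def aa : G →* (DD e W →ₗ[ℂ] DD e W) where
  toFun g :=
    { toFun := fun T => ⟨π g * T.1 * π g⁻¹, cm_conj WP g T.2.1, by
        rw [tr_conj _ T.2.1]; exact T.2.2⟩
      map_add' := fun S T => Subtype.ext (by
        change π g * (S.1 + T.1) * π g⁻¹ = π g * S.1 * π g⁻¹ + π g * T.1 * π g⁻¹
        rw [mul_add, add_mul])
      map_smul' := fun c T => Subtype.ext (by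
        change π g * (c • T.1) * π g⁻¹ = c • (π g * T.1 * π g⁻¹)
        rw [mul_smul_comm, smul_mul_assoc]) }
  map_one' := by
    refine LinearMap.ext fun T => Subtype.ext ?_
    change π 1 * T.1 * π 1⁻¹ = T.1
    rw [inv_one, map_one, one_mul, mul_one]
  map_mul' g h := by
    refine LinearMap.ext fun T => Subtype.ext ?_
    change π (g * h) * T.1 * π (g * h)⁻¹ = π g * (π h * T.1 * π h⁻¹) * π g⁻¹
    rw [map_mul, mul_inv_rev, map_mul]
    simp only [mul_assoc]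

theorem aa_coe (g : G) (T : DD e W) : (aa WP tr_conj g T).1 = π g * T.1 * π g⁻¹ := rfl

theorem norm_aa (g : G) (T : DD e W) : ‖jj e W (aa WP tr_conj g T)‖ = ‖jj e W T‖ := by
  have h : ‖jj e W (aa WP tr_conj g T)‖ ^ 2 = ‖jj e W T‖ ^ 2 := by
    rw [norm_jj_sq, norm_jj_sq, aa_coe, tr_conj _ T.2.1]
  exact (pow_left_inj₀ (norm_nonneg _) (norm_nonneg _) two_ne_zero).mp h

theorem cont_aa (contP : ∀ ξ, Continuous fun g => π g ξ) (adjP : ∀ g, adjoint (π g) = π g⁻¹)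
    [ContinuousInv G] (T : DD e W) : Continuous fun g => jj e W (aa WP tr_conj g T) := by
  refine lp_cont (C := ‖jj e W T‖) (norm_aa WP tr_conj · T) fun q => ?_
  change Continuous fun g => π g (T.1 (π g⁻¹ (e q)))
  have hnorm : ∀ g (ζ : K), ‖π g ζ‖ = ‖ζ‖ := by
    intro g ζ
    have h1 : ⟪π g ζ, π g ζ⟫_ℂ = ⟪ζ, ζ⟫_ℂ := by
      rw [← adjoint_inner_right, adjP]
      have h2 : π g⁻¹ (π g ζ) = (π g⁻¹ * π g) ζ := rfl
      rw [h2, ← map_mul, inv_mul_cancel, map_one]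
      rfl
    rw [inner_self_eq_norm_sq_to_K, inner_self_eq_norm_sq_to_K] at h1
    have h2 : ‖π g ζ‖ ^ 2 = ‖ζ‖ ^ 2 := by exact_mod_cast h1
    exact (pow_left_inj₀ (norm_nonneg _) (norm_nonneg _) two_ne_zero).mp h2
  have hv : Continuous fun g => T.1 (π g⁻¹ (e q)) :=
    T.1.continuous.comp ((contP (e q)).comp continuous_inv)
  rw [continuous_iff_continuousAt]
  intro g₀
  have h1 : Tendsto (fun g => π g (T.1 (π g₀⁻¹ (e q)))) (𝓝 g₀)
      (𝓝 (π g₀ (T.1 (π g₀⁻¹ (e q))))) := (contP _).tendsto g₀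
  have h2 : Tendsto (fun g => π g (T.1 (π g⁻¹ (e q)) - T.1 (π g₀⁻¹ (e q)))) (𝓝 g₀)
      (𝓝 0) := by
    rw [tendsto_zero_iff_norm_tendsto_zero]
    simp_rw [hnorm]
    have := (hv.tendsto g₀).sub_const (T.1 (π g₀⁻¹ (e q)))
    rw [sub_self] at this
    exact tendsto_zero_iff_norm_tendsto_zero.1 this
  have h3 := h1.add h2
  rw [add_zero] at h3
  refine h3.congr fun g => ?_
  rw [map_sub]
  abel

include WP tr_conj in
/-- **Operators of the commutant of finite trace number commuting with `π(S)` commute with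
`π(G)`.** -/
theorem comm_of_mooreq [ContinuousInv G] (adjP : ∀ g, adjoint (π g) = π g⁻¹)
    (contP : ∀ ξ, Continuous fun g => π g ξ)
    (tr_zero : ∀ T, Cm W T → trq e T = 0 → T = 0) {S : Set G} (hS : Moore S)
    {T : K →L[ℂ] K} (hT : Cm W T) (hf : trq e T < ∞) (hc : ∀ g ∈ S, T * π g = π g * T) (g : G) :
    T * π g = π g * T := by
  have e1 : ∀ g, π g * π g⁻¹ = 1 := fun g => by rw [← map_mul, mul_inv_cancel, map_one]
  have e' : ∀ g, π g⁻¹ * π g = 1 := fun g => by rw [← map_mul, inv_mul_cancel, map_one]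
  obtain ⟨T', hT'⟩ : ∃ T' : DD e W, T'.1 = T := ⟨⟨T, hT, hf⟩, rfl⟩
  have h1 := fixed_of_moore (norm_aa WP tr_conj) (cont_aa WP tr_conj contP adjP) hS (d := T')
    (fun s hs => by
      congr 1
      apply Subtype.ext
      rw [aa_coe, hT', ← hc s hs, mul_assoc, e1, mul_one]) g
  have h2 : jj e W (aa WP tr_conj g T' - T') = 0 := by rw [map_sub, h1, sub_self]
  have h3 : (trq e (aa WP tr_conj g T' - T').1).toReal = 0 := by
    rw [← norm_jj_sq, h2, norm_zero]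
    norm_num
  have h4 : trq e (aa WP tr_conj g T' - T').1 = 0 := by
    rcases (ENNReal.toReal_eq_zero_iff _).1 h3 with h | h
    · exact h
    · exact absurd h (aa WP tr_conj g T' - T').2.2.ne
  have h5 := tr_zero _ (aa WP tr_conj g T' - T').2.1 h4
  have h6 : π g * T * π g⁻¹ - T = 0 := by
    rw [← hT', ← aa_coe WP tr_conj g T']
    exact h5
  have h7 : π g * T * π g⁻¹ = T := sub_eq_zero.1 h6
  calc T * π g = (π g * T * π g⁻¹) * π g := by rw [h7]
    _ = π g * T * (π g⁻¹ * π g) := by simp only [mul_assoc]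
    _ = π g * T := by rw [e', mul_one]

end Vale.Agent.P092.H962.Mq
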