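import Vale.Agent.P092.H962.C.Mq
import Vale.Agent.P092.H34.Trn

/-!
P092, all amplifications (helper962): the trace number of a decomposable operator with respect to
the constant fields of a frame, for arbitrary frames.
-/

set_option linter.all false

open scoped InnerProductSpace ENNReal
open MeasureTheory Filter Topology ContinuousLinearMap

namespace Vale.Agent.P092.H962.Tq

open Vale.Agent.P092.H790 Vale.Agent.P092.H160 Vale.Agent.P092.H34 Vale.Agent.P092.RC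
  Vale.Agent.P092.H34.Ind Vale.Agent.P092.H421.Hs

section fib

variable {Γ ℋ Q : Type} [Group Γ] [NormedAddCommGroup ℋ] [InnerProductSpace ℂ ℋ]
  [CompleteSpace ℋ] {R : Γ →* (ℋ →L[ℂ] ℋ)} {e : Q → ℋ}

theorem adj_comm (hRa : ∀ g, adjoint (R g) = R g⁻¹) {A : ℋ →L[ℂ] ℋ}
    (hA : ∀ g, A * R g = R g * A) (g : Γ) : adjoint A * R g = R g * adjoint A := by
  have h1 := congrArg star (hA g⁻¹)
  rw [star_mul, star_mul, star_eq_adjoint, star_eq_adjoint, hRa, inv_inv] at h1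
  exact h1.symm

theorem trq_adj (hRa : ∀ g, adjoint (R g) = R g⁻¹) (h : Frq R e) {A : ℋ →L[ℂ] ℋ}
    (hA : ∀ g, A * R g = R g * A) : trq e (adjoint A) = trq e A := (trq_swap hRa h h hA).symm

theorem norm_U' {U U' : ℋ →L[ℂ] ℋ} (hUU' : adjoint U = U') (h2 : U' * U = 1) (v : ℋ) :
    ‖U v‖ = ‖v‖ := by
  have h3 : ⟪U v, U v⟫_ℂ = ⟪v, v⟫_ℂ := by
    rw [← adjoint_inner_left, hUU']
    have : U' (U v) = (U' * U) v := rfl
    rw [this, h2]
    rfl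
  rw [inner_self_eq_norm_sq_to_K, inner_self_eq_norm_sq_to_K] at h3
  have h4 : ‖U v‖ ^ 2 = ‖v‖ ^ 2 := by exact_mod_cast h3
  exact (pow_left_inj₀ (norm_nonneg _) (norm_nonneg _) two_ne_zero).mp h4

/-- unitary image of a frame -/
theorem frq_unitary (h : Frq R e) {U U' : ℋ →L[ℂ] ℋ} (hUU' : adjoint U = U') (h1 : U * U' = 1)
    (h2 : U' * U = 1) (hc : ∀ g, U' * R g = R g * U') : Frq R fun q => U' (e q) := by
  intro η
  rw [← enn_congr (norm_U' hUU' h2 η), ← h (U η)]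
  refine tsum_congr fun p => ?_
  change ‖⟪R p.2 (U' (e p.1)), η⟫_ℂ‖ₑ ^ 2 = ‖⟪R p.2 (e p.1), U η⟫_ℂ‖ₑ ^ 2
  rw [← cm_ap (hc p.2) (e p.1), ← hUU', adjoint_inner_left]

theorem trq_conj (hRa : ∀ g, adjoint (R g) = R g⁻¹) (h : Frq R e) {A : ℋ →L[ℂ] ℋ}
    (hA : ∀ g, A * R g = R g * A) {U U' : ℋ →L[ℂ] ℋ} (hUU' : adjoint U = U') (h1 : U * U' = 1)
    (h2 : U' * U = 1) (hc : ∀ g, U' * R g = R g * U') : trq e (U * A * U') = trq e A := by
  rw [← trq_indep hRa h (frq_unitary h hUU' h1 h2 hc) hA]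
  refine tsum_congr fun q => ?_
  change ‖U (A (U' (e q)))‖ₑ ^ 2 = ‖A (U' (e q))‖ₑ ^ 2
  rw [enn_congr (norm_U' hUU' h2 _)]

theorem eq_zero_of_ap (hRa : ∀ g, adjoint (R g) = R g⁻¹) (h : Frq R e) {A : ℋ →L[ℂ] ℋ}
    (hA : ∀ g, A * R g = R g * A) (h0 : ∀ q, A (e q) = 0) : A = 0 := by
  have h8 : adjoint A = 0 := by
    refine ContinuousLinearMap.ext fun v => h.eq_zero fun p => ?_
    rw [adjoint_inner_right, cm_ap (hA p.2), h0, map_zero, inner_zero_left]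
  rw [← adjoint_adjoint A, h8, map_zero]

theorem trq_zero (hRa : ∀ g, adjoint (R g) = R g⁻¹) (h : Frq R e) {A : ℋ →L[ℂ] ℋ}
    (hA : ∀ g, A * R g = R g * A) (h0 : trq e A = 0) : A = 0 := by
  refine eq_zero_of_ap hRa h hA fun q => ?_
  have h2 := (ENNReal.tsum_eq_zero.mp h0) q
  exact enorm_eq_zero.mp ((pow_eq_zero_iff two_ne_zero).1 h2)

end fib

section tr

variable {X : Type} [MeasurableSpace X] {μ : Measure X} [IsProbabilityMeasure μ] {ℋ Q : Type}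
  [NormedAddCommGroup ℋ] [InnerProductSpace ℂ ℋ] [CompleteSpace ℋ] [Countable Q]

/-- the constant fields of a family -/
noncomputable def cst (μ : Measure X) [IsProbabilityMeasure μ] (e : Q → ℋ) : Q → Lp ℋ 2 μ :=
  fun q => Lp.const 2 μ (e q)

/-- the trace number in terms of the field -/
theorem trq_fld {T : Lp ℋ 2 μ →L[ℂ] Lp ℋ 2 μ} {A : X → ℋ →L[ℂ] ℋ} (hT : Fld T A) (e : Q → ℋ)
    (hA : ∀ y, AEStronglyMeasurable (fun x => A x y) μ) :
    trq (cst μ e) T = ∫⁻ x, trq e (A x) ∂μ := by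
  have h1 : ∀ q, ‖T (cst μ e q)‖ₑ ^ 2 = ∫⁻ x, ‖A x (e q)‖ₑ ^ 2 ∂μ := by
    intro q
    rw [enorm_sq_lint]
    refine lintegral_congr_ae ?_
    filter_upwards [hT (cst μ e q), Lp.coeFn_const (p := 2) (μ := μ) (e q)] with x a1 a2
    rw [a1]
    change ‖A x ((Lp.const 2 μ (e q) : Lp ℋ 2 μ) x)‖ₑ ^ 2 = _
    rw [a2]
    rfl
  rw [trq]
  simp_rw [h1]
  rw [← lintegral_tsum]
  · rfl
  · intro q
    exact ((hA (e q)).enorm).pow_const 2

end tr

section picture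

variable {D Λ Γ Q : Type} [Group D] [Group Λ] [Countable Λ] [Group Γ] {d : CData D Λ} {ℋ : Type}
  [NormedAddCommGroup ℋ] [InnerProductSpace ℂ ℋ] [CompleteSpace ℋ]
  {V : Λ →* (ℋ →L[ℂ] ℋ)} {R : Γ →* (ℋ →L[ℂ] ℋ)} (hV : ∀ v, adjoint (V v) = V v⁻¹)
  {I : Type} [Countable I] (b : HilbertBasis I ℂ ℋ) [Countable Γ] [Countable Q] {e : Q → ℋ}
  (hf : Frq R e) (adjR : ∀ g, adjoint (R g) = R g⁻¹)

include b in
theorem exists_fieldq {T : Lp ℋ 2 d.μ →L[ℂ] Lp ℋ 2 d.μ} (hT : AA d (Set.range R) T) :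
    ∃ A : d.X → ℋ →L[ℂ] ℋ, (∀ x, ‖A x‖ ≤ ‖T‖) ∧
      (∀ y, AEStronglyMeasurable (fun x => A x y) d.μ) ∧ Fld T A ∧
      (∀ᵐ x ∂d.μ, ∀ g, A x * R g = R g * A x) ∧
      trq (cst d.μ e) T = ∫⁻ x, trq e (A x) ∂d.μ := by
  obtain ⟨A, h1, h2, h3, h4⟩ := hT.exists_fld b (Set.countable_range _)
  refine ⟨A, h1, h2, h3, ?_, trq_fld h3 e h2⟩
  filter_upwards [h4] with x hx g
  exact hx _ ⟨g, rfl⟩

include hf adjR b in
theorem TRQ_adj {T : Lp ℋ 2 d.μ →L[ℂ] Lp ℋ 2 d.μ} (hT : AA d (Set.range R) T) :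
    trq (cst d.μ e) (adjoint T) = trq (cst d.μ e) T := by
  have hT' : AA d (Set.range R) (adjoint T) := hT.adj (by
    rintro _ ⟨g, rfl⟩
    exact ⟨g⁻¹, (adjR g).symm⟩)
  obtain ⟨A, -, -, h3, h4, h5⟩ := exists_fieldq (e := e) b hT
  obtain ⟨B, -, -, h3', h4', h5'⟩ := exists_fieldq (e := e) b hT'
  rw [h5, h5']
  refine lintegral_congr_ae ?_
  filter_upwards [fld_adj b hT.dcm h3 h3', h4] with x e1 e2
  rw [e1, trq_adj adjR hf e2]

include hf adjR b in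
theorem TRQ_conj (h₂ : ∀ g h, V g * R h = R h * V g)
    {T : Lp ℋ 2 d.μ →L[ℂ] Lp ℋ 2 d.μ} (hT : AA d (Set.range R) T) (g : D) :
    trq (cst d.μ e) (pi d hV g * T * pi d hV g⁻¹) = trq (cst d.μ e) T := by
  have hT' : AA d (Set.range R) (pi d hV g * T * pi d hV g⁻¹) := hT.conj hV (by
    rintro _ ⟨s, rfl⟩ v
    exact (h₂ v s).symm) g
  obtain ⟨A, -, m1, h3, h4, h5⟩ := exists_fieldq (e := e) b hT
  obtain ⟨B, -, -, h3', h4', h5'⟩ := exists_fieldq (e := e) b hT'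
  rw [h5, h5']
  have e0 : ∀ᵐ x ∂d.μ, trq e (B x) = trq e (A (d.act g⁻¹ x)) := by
    filter_upwards [fld_unique b h3' (fld_conj hV h3 g), ae_comp (d.mp g⁻¹) h4] with x e1 e2
    rw [e1]
    refine trq_conj adjR hf e2 (hV _) ?_ ?_ (fun s => h₂ _ s)
    · rw [← map_mul, mul_inv_cancel, map_one]
    · rw [← map_mul, inv_mul_cancel, map_one]
  rw [lintegral_congr_ae e0]
  have m2 : AEMeasurable (fun x => trq e (A x)) d.μ := by
    refine AEMeasurable.ennreal_tsum fun q => ?_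
    exact ((m1 (e q)).enorm).pow_const 2
  have m3 := (d.mp g⁻¹).map_eq
  have e2 := lintegral_map' (μ := d.μ) (g := d.act g⁻¹) (f := fun x => trq e (A x))
    (by rw [m3]; exact m2) (d.mp g⁻¹).measurable.aemeasurable
  rw [m3] at e2
  exact e2.symm

include hf adjR b in
theorem TRQ_zero {T : Lp ℋ 2 d.μ →L[ℂ] Lp ℋ 2 d.μ} (hT : AA d (Set.range R) T)
    (h0 : trq (cst d.μ e) T = 0) : T = 0 := by
  obtain ⟨A, -, m1, h3, h4, h5⟩ := exists_fieldq (e := e) b hT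
  rw [h5] at h0
  have m2 : AEMeasurable (fun x => trq e (A x)) d.μ := by
    refine AEMeasurable.ennreal_tsum fun q => ?_
    exact ((m1 (e q)).enorm).pow_const 2
  rw [lintegral_eq_zero_iff' m2] at h0
  refine h3.ext fld_zero ?_
  filter_upwards [h0, h4] with x e1 e2
  exact trq_zero adjR hf e2 e1

end picture

end Vale.Agent.P092.H962.Tq
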